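import Vale.Agent.P231.CoZ.PF

/-!
# P231, stage 2, S2-M (M4): the bundle `UT → Z` of unit spheres of the planes `P`
-/

set_option maxSynthPendingDepth 3
set_option linter.unusedSectionVars false
set_option linter.unusedVariables false

open Bundle Manifold Set Filter Module MeasureTheory
open scoped ContDiff Manifold Topology

namespace Vale.Agent.P231.CoZ

noncomputable section

open Vale.Agent.P234 Vale.Agent.P231 Vale.Agent.P231.Fm Vale.Agent.P231.W Vale.Agent.P231.WR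
open Vale.Agent.P231.S2II

variable {E : Type*} [NormedAddCommGroup E] [NormedSpace ℝ E]
  {M : Type*} [MetricSpace M] [ChartedSpace E M]
  [RiemannianBundle (fun x : M => TangentSpace 𝓘(ℝ, E) x)]
  {e : ∀ x : M, TangentSpace 𝓘(ℝ, E) x → M}
  [FiniteDimensional ℝ E] [IsManifold 𝓘(ℝ, E) ∞ M]
  [IsContMDiffRiemannianBundle 𝓘(ℝ, E) ∞ E (fun x : M => TangentSpace 𝓘(ℝ, E) x)]
  [CompactSpace M] [ConnectedSpace M] [IsRiemannianManifold 𝓘(ℝ, E) M]

/-- the cut pair of a unit vector -/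
def fb (e : ∀ x : M, TangentSpace 𝓘(ℝ, E) x → M) (D : ℝ) (v : UT E M) : M × M :=
  (foot v, bar e D v)

/-- the diffeology of the space of cut pairs -/
def dZ (e : ∀ x : M, TangentSpace 𝓘(ℝ, E) x → M) (D : ℝ) : Dif (M × M) :=
  (dUT E M).quot (fb e D)

theorem map_fb {D : ℝ} : (dUT E M).Map (dZ e D) (fb e D) := fun {E'} _ _ _ {u x} h =>
  ⟨u, EventuallyEq.rfl, h⟩

theorem quo_fb {D : ℝ} : Co.IsQuo (dUT E M) (dZ e D) (fb e D) where
  map := map_fb
  lift := fun {E'} _ _ _ {u x} hu => by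
    obtain ⟨v, h1, h2⟩ := hu
    exact ⟨v, h2, h1⟩

theorem map_Zfst {D : ℝ} : (dZ e D).Map (dM E M) Prod.fst := fun {E'} _ _ _ {u x} hu => by
  obtain ⟨v, h1, h2⟩ := hu
  exact (dM E M).congr (map_foot h2) (h1.mono fun y hy => congrArg Prod.fst hy)

theorem map_Zsnd (F : Facts e) {D : ℝ} : (dZ e D).Map (dM E M) Prod.snd :=
  fun {E'} _ _ _ {u x} hu => by
    obtain ⟨v, h1, h2⟩ := hu
    exact (dM E M).congr (map_bar F D h2) (h1.mono fun y hy => congrArg Prod.snd hy)

/-- the cut pair of a frame -/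
def fq {D : ℝ} {l : ℕ} (f : Fr e D l) : M × M := fb e D f.v

theorem map_fq {D : ℝ} {l : ℕ} : (dFr e D l).Map (dZ e D) fq := fun h => map_fb (map_Fr_v h)

section Kf

variable {D : ℝ} {l : ℕ}

/-- the fibre integral on the space of frames -/
def frP (b : Form (dUT E M)) : Form (dFr e D l) :=
  Co.si (bas (l + 1)) (Form.pull evP map_evP b)

/-- the fibre integral of a form, as a function of the frame -/
def kfP (b : Form (dUT E M)) (f : Fr e D l) : ℝ := WF.ptv (frP b) f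

/-- a form which orients the planes -/
structure OrnZ (l : ℕ) (b : Form (dUT E M)) (c : Form (dZ e D)) : Prop where
  deg : Form.IsDeg l b
  d : b.d = Form.pull (fb e D) map_fb c
  ne : ∀ f : Fr e D l, kfP b f ≠ 0

end Kf

section Inst

variable (F : Facts e) {D : ℝ} (hD : 0 < D) (hB : InjGE e D) (hdiam : ∀ p q : M, dist p q ≤ D)
  {l : ℕ} [NeZero l] (hP : ∀ x y : M, dist x y = D → finrank ℝ (H775.Pl e D x y) = l + 1)

theorem isDeg_frP {b : Form (dUT E M)} (hdeg : Form.IsDeg l b) :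
    Form.IsDeg 0 (frP b : Form (dFr e D l)) :=
  Co.isDeg_si (bas (l + 1)) (hdeg.pull _ _) (by omega)

include F hD hB hdiam in
theorem evP_pull (c : Form (dZ e D)) :
    Form.pull evP map_evP (Form.pull (fb e D) map_fb c) =
      (Co.pS (Form.pull fq map_fq c) : Form (Co.SB (dFr e D l) (Eul (l + 1)))) :=
  Form.ext_val fun E' _ _ _ u x hu => by
    rw [Form.pull_val _ _ hu, Form.pull_val _ _ (map_evP hu), Co.pS, Form.pull_val _ _ hu,
      Form.pull_val _ _ (Co.map_sbfst hu)]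
    refine c.congr (map_fb (map_evP hu)) (Eventually.of_forall fun s => ?_)
    exact Prod.ext (foot_evP (u s)) (bar_evP F hD hB hdiam (u s))

include F hD hB hdiam in
theorem frP_d {b : Form (dUT E M)} {c : Form (dZ e D)}
    (hb : b.d = Form.pull (fb e D) map_fb c) : (frP b : Form (dFr e D l)).d = 0 := by
  have h1 := Co.si_d (bas (l + 1)) (Form.pull evP (map_evP (e := e) (D := D) (l := l)) b)
  rw [← Form.pull_d, hb, evP_pull F hD hB hdiam] at h1
  have h2 : Co.si (bas (l + 1))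
      (Co.pS (Form.pull fq map_fq c) : Form (Co.SB (dFr e D l) (Eul (l + 1)))) = 0 := by
    have h3 := Co.si_mul_pS (bas (l + 1)) (1 : Form (Co.SB (dFr e D l) (Eul (l + 1))))
      (Form.pull fq map_fq c)
    have hl := NeZero.pos l
    rw [one_mul, Co.si_eq_zero (bas (l + 1)) Form.IsDeg.one (by omega), zero_mul] at h3
    exact h3
  rw [h2] at h1
  exact (smul_eq_zero.1 h1.symm).resolve_left (pow_ne_zero _ (by norm_num))

include F hD hB hdiam in
theorem kfP_eventually {b : Form (dUT E M)} {c : Form (dZ e D)} (hdeg : Form.IsDeg l b)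
    (hb : b.d = Form.pull (fb e D) map_fb c) {E' : Type}
    [NormedAddCommGroup E'] [NormedSpace ℝ E'] [FiniteDimensional ℝ E'] {f : E' → Fr e D l}
    {x : E'} (hf : (dFr e D l).At f x) :
    ∀ᶠ s in 𝓝 x, kfP b (f s) = kfP b (f x) :=
  ptv_eventually (wf_of_isDeg (isDeg_frP hdeg)) (frP_d F hD hB hdiam hb) hf

/-- the fibre integral in another frame -/
theorem frP_change (w : Form (dUT E M)) {E' : Type} [NormedAddCommGroup E'] [NormedSpace ℝ E']
    [FiniteDimensional ℝ E'] {f f' : E' → Fr e D l} {x : E'} (hf : (dFr e D l).At f x)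
    (hf' : (dFr e D l).At f' x) {g : E' → (Eul (l + 1) →L[ℝ] Eul (l + 1))} (hg : Sm g x)
    (hiso : ∀ᶠ s in 𝓝 x, ∀ y, ‖g s y‖ = ‖y‖)
    (hc : ∀ᶠ s in 𝓝 x, ∀ y, ‖y‖ = 1 → evP (f' s, y) = evP (f s, g s y)) :
    (frP w : Form (dFr e D l)).val f' x =
      LinearMap.det (g x : Eul (l + 1) →ₗ[ℝ] Eul (l + 1)) •
        (frP w : Form (dFr e D l)).val f x := by
  refine si_change _ _ hf hf' hg hiso fun y hy => ?_
  have hy' : ∀ᶠ p in 𝓝 ((x, y) : E' × Eul (l + 1)), p.2 ≠ 0 :=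
    continuous_snd.continuousAt.eventually_ne hy
  have hfst : Tendsto (Prod.fst : E' × Eul (l + 1) → E') (𝓝 (x, y)) (𝓝 x) :=
    continuous_fst.continuousAt
  have hiso' : ∀ᶠ p in 𝓝 ((x, y) : E' × Eul (l + 1)), ∀ y, ‖g p.1 y‖ = ‖y‖ :=
    hfst.eventually hiso
  have hc' := hfst.eventually hc
  have h3 : Sm (fun p : E' × Eul (l + 1) => (p.1, g p.1 p.2)) (x, y) := by
    have h4 : Sm (fun p : E' × Eul (l + 1) => g p.1) (x, y) :=
      Sm.comp (f := g) (g := Prod.fst) (x := ((x, y) : E' × Eul (l + 1))) hg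
        (Sm.of_contDiff contDiff_fst _)
    filter_upwards [h4] with z hz
    exact contDiffAt_fst.prodMk (hz.clm_apply contDiffAt_snd)
  have h5 : (Co.PB (dFr e D l) (Eul (l + 1))).At
      (cylF f ∘ fun p : E' × Eul (l + 1) => (p.1, g p.1 p.2)) (x, y) := by
    refine ⟨Dif.comp _ (u := cylF f) (cylF_at hf _) h3, ?_⟩
    filter_upwards [hy', hiso'] with p h11 h12 h13
    have h14 := h12 p.2
    have h15 : g p.1 p.2 = 0 := h13
    rw [h15, norm_zero] at h14
    exact h11 (norm_eq_zero.1 h14.symm)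
  have h6 : (Co.PB (dFr e D l) (Eul (l + 1))).At (cylF (F := Eul (l + 1)) f') (x, y) :=
    ⟨cylF_at hf' y, hy'⟩
  have h5' : (Co.SB (dFr e D l) (Eul (l + 1))).At
      (Co.nrm ∘ fun p : E' × Eul (l + 1) => (f p.1, g p.1 p.2)) (x, y) := Co.map_nrm h5
  rw [Form.pull_val _ _ (Co.map_nrm h6), Form.pull_val _ _ h5']
  refine w.congr (map_evP (Co.map_nrm h6)) ?_
  filter_upwards [hc', hiso', hy'] with p h7 h8 h9
  have h10 := h7 (‖p.2‖⁻¹ • p.2) (by
    rw [norm_smul, norm_inv, norm_norm, inv_mul_cancel₀ (norm_ne_zero_iff.2 h9)])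
  change evP (f' p.1, ‖p.2‖⁻¹ • p.2) = evP (f p.1, ‖g p.1 p.2‖⁻¹ • g p.1 p.2)
  rw [h10, h8, map_smul]

theorem kfP_change {b : Form (dUT E M)} (hdeg : Form.IsDeg l b) {E' : Type}
    [NormedAddCommGroup E'] [NormedSpace ℝ E'] [FiniteDimensional ℝ E'] {f f' : E' → Fr e D l}
    {x : E'} (hf : (dFr e D l).At f x) (hf' : (dFr e D l).At f' x)
    {g : E' → (Eul (l + 1) →L[ℝ] Eul (l + 1))} (hg : Sm g x)
    (hiso : ∀ᶠ s in 𝓝 x, ∀ y, ‖g s y‖ = ‖y‖)
    (hc : ∀ᶠ s in 𝓝 x, ∀ y, ‖y‖ = 1 → evP (f' s, y) = evP (f s, g s y)) :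
    kfP b (f' x) = LinearMap.det (g x : Eul (l + 1) →ₗ[ℝ] Eul (l + 1)) * kfP b (f x) := by
  have h1 := frP_change b hf hf' hg hiso hc
  have h2 := congrArg aug h1
  rw [map_smul, ← WF.ptv_eq _ hf, ← WF.ptv_eq _ hf', smul_eq_mul] at h2
  exact h2

include F hD hB hdiam hP in
/-- the transition isometries -/
theorem exists_transP {E' : Type} [NormedAddCommGroup E'] [NormedSpace ℝ E']
    [FiniteDimensional ℝ E'] {f f' : E' → Fr e D l} {x : E'} (hf : (dFr e D l).At f x)
    (hf' : (dFr e D l).At f' x) (hff : fq ∘ f =ᶠ[𝓝 x] fq ∘ f') :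
    Sm (fun s => mt (pt (f s) (f' s))) x ∧ (∀ᶠ s in 𝓝 x, ∀ y, ‖mt (pt (f s) (f' s)) y‖ = ‖y‖) ∧
      ∀ᶠ s in 𝓝 x, ∀ y, ‖y‖ = 1 → evP (f' s, y) = evP (f s, mt (pt (f s) (f' s)) y) := by
  have h0 : ∀ᶠ s in 𝓝 x, foot (f s).v = foot (f' s).v ∧ bar e D (f s).v = bar e D (f' s).v :=
    hff.mono fun s hs => ⟨congrArg Prod.fst hs, congrArg Prod.snd hs⟩
  have h1 : ∀ᶠ s in 𝓝 x, ∀ y, ‖mt (pt (f s) (f' s)) y‖ = ‖y‖ := by
    filter_upwards [h0] with s hs y
    exact norm_pt F hD hB hdiam hP hs.1 hs.2 y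
  refine ⟨sm_mt fun i j => sm_pt hf hf' (h0.mono fun s hs => hs.1) i j, h1, ?_⟩
  filter_upwards [h0, h1] with s hs hs1 y hy
  have hy' : ‖mt (pt (f s) (f' s)) y‖ = 1 := (hs1 y).trans hy
  rw [evP_of _ hy, evP_of _ hy']
  exact mk_congr hs.1.symm (pb_pt F hD hB hdiam hP hs.1 hs.2 y)

theorem pt_flip (f : Fr e D l) (i j : Fin (l + 1)) : pt f (flip F hD hB hdiam f) i j =
    if i = j then (if i = 0 then 1 else -1) else 0 := by
  refine Fin.cases ?_ (fun j => ?_) j
  · have h1 : pt f (flip F hD hB hdiam f) i 0 = ip (foot f.v) (vec' (pv f i)) (vec' (pv f 0)) := rfl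
    rw [h1, ip_pv]
    by_cases h : i = 0
    · rw [if_pos h, if_pos h, if_pos h]
    · rw [if_neg h, if_neg h]
  · have h1 : pt f (flip F hD hB hdiam f) i j.succ =
        ip (foot f.v) (vec' (pv f i)) (vec' (ng (f.W j))) := rfl
    have h2 : ip (foot f.v) (vec' (pv f i)) (vec' (ng (f.W j))) =
        -ip (foot f.v) (vec' (pv f i)) (vec' (pv f j.succ)) := by
      rw [vec'_ng, ip_neg_right']
      rfl
    rw [h1, h2, ip_pv]
    by_cases h : i = j.succ
    · rw [if_pos h, if_pos h, if_neg (by rw [h]; exact Fin.succ_ne_zero j)]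
    · rw [if_neg h, if_neg h, neg_zero]

theorem det_flip (hl : Odd l) (f : Fr e D l) :
    LinearMap.det ((mt (pt f (flip F hD hB hdiam f)) : Eul (l + 1) →L[ℝ] Eul (l + 1)) :
      Eul (l + 1) →ₗ[ℝ] Eul (l + 1)) = -1 := by
  rw [det_mt]
  have h1 : (Matrix.of (pt f (flip F hD hB hdiam f))) =
      Matrix.diagonal (fun i : Fin (l + 1) => if i = 0 then (1 : ℝ) else -1) := by
    ext i j
    rw [Matrix.of_apply, pt_flip, Matrix.diagonal_apply]
  rw [h1, Matrix.det_diagonal, Fin.prod_univ_succ, if_pos rfl, one_mul]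
  have h2 : ∀ i : Fin l, (if (i.succ : Fin (l + 1)) = 0 then (1 : ℝ) else -1) = -1 := fun i =>
    if_neg (Fin.succ_ne_zero i)
  simp only [h2]
  rw [Finset.prod_const, Finset.card_univ, Fintype.card_fin, hl.neg_one_pow]

include hP in
theorem kfP_flip {b : Form (dUT E M)} (hdeg : Form.IsDeg l b) (hl : Odd l) {E' : Type}
    [NormedAddCommGroup E'] [NormedSpace ℝ E'] [FiniteDimensional ℝ E'] {f : E' → Fr e D l}
    {x : E'} (hf : (dFr e D l).At f x) :
    kfP b (flip F hD hB hdiam (f x)) = -kfP b (f x) := by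
  obtain ⟨h1, h2, h3⟩ := exists_transP F hD hB hdiam hP hf (map_flip F hD hB hdiam hf)
    (Eventually.of_forall fun s => rfl)
  have h4 := kfP_change (b := b) hdeg hf (map_flip F hD hB hdiam hf) h1 h2 h3
  have h5 : LinearMap.det ((mt (pt (f x) ((flip F hD hB hdiam ∘ f) x)) :
      Eul (l + 1) →L[ℝ] Eul (l + 1)) : Eul (l + 1) →ₗ[ℝ] Eul (l + 1)) = -1 :=
    det_flip F hD hB hdiam hl (f x)
  rw [h5, neg_one_mul] at h4
  exact h4

/-- the space of oriented frames -/
abbrev dFoP (e : ∀ x : M, TangentSpace 𝓘(ℝ, E) x → M) (D : ℝ) (l : ℕ) (b : Form (dUT E M)) :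
    Dif (Fr e D l) :=
  (dFr e D l).on {f | 0 < kfP b f}

include F hD hB hdiam hP in
/-- **the sphere bundle of the planes** -/
theorem bun_Z {b : Form (dUT E M)} {c : Form (dZ e D)} (hb : OrnZ l b c) (hl : Odd l) :
    Co.Bun (dZ e D) (dUT E M) (dFoP e D l b) (Eul (l + 1)) (fb e D) fq evP where
  hπ := map_fb
  hq :=
    { map := fun h => map_fq h.1
      lift := fun {E'} _ _ _ {u x} hu => by
        obtain ⟨v, hvu, hv⟩ := hu
        obtain ⟨f, hf, hfu⟩ := (lifts_Fr F hD hB hdiam hP).lift hv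
        have hfu' : fq ∘ f =ᶠ[𝓝 x] u := by
          filter_upwards [hvu, hfu] with s h1 h2
          have h3 : (f s).v = v s := h2
          have h4 : fb e D (v s) = u s := h1
          change fb e D (f s).v = u s
          rw [h3, h4]
        rcases lt_or_gt_of_ne (hb.ne (f x)) with h | h
        · refine ⟨fun s => flip F hD hB hdiam (f s), ⟨map_flip F hD hB hdiam hf, ?_⟩, hfu'⟩
          have h1 := kfP_eventually F hD hB hdiam hb.deg hb.d (map_flip F hD hB hdiam hf)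
          filter_upwards [h1] with s hs
          have h2 := kfP_flip F hD hB hdiam hP hb.deg hl hf
          have h3 : kfP b (flip F hD hB hdiam (f s)) = kfP b (flip F hD hB hdiam (f x)) := hs
          change 0 < kfP b (flip F hD hB hdiam (f s))
          rw [h3, h2]
          linarith
        · refine ⟨f, ⟨hf, ?_⟩, hfu'⟩
          filter_upwards [kfP_eventually F hD hB hdiam hb.deg hb.d hf] with s hs
          change 0 < kfP b (f s)
          rw [hs]
          exact h }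
  hev := fun {E'} _ _ _ {u x} h => map_evP ⟨⟨h.1.1.1, h.1.2⟩, h.2⟩
  comm := fun {E'} _ _ _ {u x} h => Prod.ext (foot_evP (u x)) (bar_evP F hD hB hdiam (u x))
  trans := fun {E'} _ _ _ {f f' x} hf hf' hff => by
    obtain ⟨hg, hiso, hc⟩ := exists_transP F hD hB hdiam hP hf.1 hf'.1 hff
    refine ⟨fun s => mt (pt (f s) (f' s)), hg, ?_⟩
    filter_upwards [hiso, hc, hg.eventually, eventually_eventually_nhds.2 hiso,
      eventually_eventually_nhds.2 hc, (dFr e D l).open' hf.1, (dFr e D l).open' hf'.1,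
      hf.2, hf'.2] with s h1 h2 h3 h4 h5 h6 h7 h8 h9
    refine ⟨h1, ?_, h2⟩
    have h10 := kfP_change (b := b) hb.deg h6 h7 h3 h4 h5
    have h11 := det_iso h1
    have h8' : 0 < kfP b (f s) := h8
    have h9' : 0 < kfP b (f' s) := h9
    rcases abs_eq (zero_le_one' ℝ) |>.1 h11 with h12 | h12
    · exact h12
    · rw [h12, neg_one_mul] at h10
      linarith
  lift := fun {E'} _ _ _ {s f x} hs hf hsf => by
    have h0 : ∀ᶠ y in 𝓝 x, foot (s y) = foot (f y).v ∧ bar e D (s y) = bar e D (f y).v :=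
      hsf.mono fun y hy => ⟨(congrArg Prod.fst hy).symm, (congrArg Prod.snd hy).symm⟩
    refine ⟨fun y => pc (f y) (vec' (s y)), ?_, ?_⟩
    · have h1 : ∀ i, Sm (fun y => pc (f y) (vec' (s y)) i) x := by
        intro i
        refine sm_ip' (u := fun y => (f y).v) (at_pv hf.1 i) hs
          (Eventually.of_forall fun y => foot_pv _ _) ?_
        filter_upwards [h0] with y hy using hy.1
      filter_upwards [eventually_all.2 h1] with y hy
      exact contDiffAt_euclidean.2 hy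
    · filter_upwards [h0] with y hy
      have h2 := mem_of_eq F hD hB hdiam hP (f y) hy.1 hy.2
      have h3 := pb_pc F hD hB hdiam hP (f y) h2
      have h4 : ‖pc (f y) (vec' (s y))‖ = 1 := by
        have h5 : ‖pc (f y) (vec' (s y))‖ ^ 2 = 1 := by
          rw [← real_inner_self_eq_norm_sq, ← ip_pb_pb (f y), h3, ← hy.1]
          exact ip_vec' _
        exact (sq_eq_sq₀ (norm_nonneg _) zero_le_one).1 (h5.trans (one_pow 2).symm)
      refine ⟨h4, ?_⟩
      rw [evP_of _ h4]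
      exact (mk_congr hy.1.symm h3).trans (mk_eta (s y))
  inj := fun {E'} _ _ _ {f x} hf ξ ξ' h1 h2 h3 => by
    rw [evP_of _ h1, evP_of _ h2] at h3
    have h5 : pb (f x) ξ = pb (f x) ξ' := congrArg vec' h3
    rw [← pc_pb (f x) ξ, h5, pc_pb]

end Inst

end

end Vale.Agent.P231.CoZ
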