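import Vale.Agent.P231.CoZ.Sol
import Vale.Agent.P231.WQ.Psi

/-!
# P231, S2-DIM (2): the dimension of the planes divides the dimension of `M`
-/

set_option maxSynthPendingDepth 3
set_option linter.unusedSectionVars false
set_option linter.unusedVariables false

open Bundle Manifold Set Filter Module MeasureTheory
open scoped ContDiff Manifold Topology

namespace Vale.Agent.P231.CoZ

noncomputable section

open Vale.Agent.P234 Vale.Agent.P231 Vale.Agent.P231.Fm Vale.Agent.P231.W Vale.Agent.P231.H775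
open Vale.Agent.P231.WE Vale.Agent.P231.FE Vale.Agent.P231.CoC
open Vale.Agent.P231.S2I (chF cut_chF contDiff_chF sint sint_eq map_rad' dPt Pt ofOn ext_id dP)
open Vale.Agent.P231.Co (SB)

variable {E : Type*} [NormedAddCommGroup E] [NormedSpace ℝ E] [FiniteDimensional ℝ E]
  {M : Type*} [MetricSpace M] [ChartedSpace E M] [IsManifold 𝓘(ℝ, E) ∞ M]
  [RiemannianBundle (fun x : M => TangentSpace 𝓘(ℝ, E) x)]
  [IsContMDiffRiemannianBundle 𝓘(ℝ, E) ∞ E (fun x : M => TangentSpace 𝓘(ℝ, E) x)]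
  {e : ∀ x : M, TangentSpace 𝓘(ℝ, E) x → M}
  [CompactSpace M] [ConnectedSpace M] [IsRiemannianManifold 𝓘(ℝ, E) M]

section Sph

variable (p : M) (v₀ : UT E M)

/-- directions at `p` -/
def sd (p : M) (v₀ : UT E M) (y : Eu E) : UT E M := mkp p v₀ (fI (E := E) p (rad y))

/-- coordinates of the unit vectors at `p` -/
def sc (p : M) (v : UT E M) : Eu E := (fI (E := E) p).symm (vp p v)

theorem norm_fI_rad {y : Eu E} (hy : y ≠ 0) : ‖fI (E := E) p (rad y)‖ = 1 := by
  rw [LinearIsometryEquiv.norm_map, Fm.norm_rad hy]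

theorem map_sd : (dP (Eu E)).Map ((dUT E M).on (up p)) (sd p v₀) := by
  intro V _ _ _ u x hu
  have h1 : Sm u x := hu.1
  have h2 : ∀ᶠ y in 𝓝 x, u y ≠ 0 := hu.2
  refine at_mkp (f := fun y => fI (E := E) p (rad (u y))) ?_ ?_
  · filter_upwards [h1, h2] with y k1 k2
    exact (fI (E := E) p).contDiff.contDiffAt.comp y ((contDiffAt_rad k2).comp y k1)
  · filter_upwards [h2] with y k2 using norm_fI_rad p k2

theorem norm_sc {v : UT E M} (h : foot v = p) : ‖sc p v‖ = 1 :=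
  ((fI (E := E) p).symm.norm_map (vp p v)).trans (norm_vp h)

theorem map_sc : ((dUT E M).on (up p)).Map (dP (Eu E)) (sc p) := by
  intro V _ _ _ u x hu
  refine ⟨?_, ?_⟩
  · show Sm (fun y => sc p (u y)) x
    filter_upwards [sm_vecp hu] with y hy
    exact (fI (E := E) p).symm.contDiff.contDiffAt.comp y hy
  · filter_upwards [hu.2] with y hy
    have h1 : ‖sc p (u y)‖ = 1 := norm_sc p hy
    exact ne_zero_of_nm h1

theorem sd_sc {v : UT E M} (h : foot v = p) : sd p v₀ (sc p v) = v := by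
  have h1 : ‖sc p v‖ = 1 := norm_sc p h
  rw [sd, rad_unit h1, sc, LinearIsometryEquiv.apply_symm_apply]
  exact mkp_vp h

theorem sc_sd {y : Eu E} (hy : y ≠ 0) : sc p (sd p v₀ y) = rad y := by
  have h1 : (vec' (sd p v₀ y) : E) = (fI (E := E) p (rad y) : TangentSpace 𝓘(ℝ, E) p) :=
    vec'_mkp (norm_fI_rad p hy)
  have h2 : vp p (sd p v₀ y) = fI (E := E) p (rad y) := h1
  rw [sc, h2, LinearIsometryEquiv.symm_apply_apply]

theorem sd_rad (y : Eu E) (hy : y ≠ 0) : sd p v₀ (rad y) = sd p v₀ y := by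
  rw [sd, sd, rad_unit (Fm.norm_rad hy)]

/-- the unit sphere at `p` is not acyclic in degree `dim M - 1` -/
theorem exists_top_up (hN : 1 < finrank ℝ E) : ∃ w : Form ((dUT E M).on (up p)), w.d = 0 ∧
    Form.IsDeg (finrank ℝ E - 1) w ∧ ∀ η : Form ((dUT E M).on (up p)), w ≠ η.d := by
  obtain ⟨ξ₀, hξ⟩ := CoU.exists_unit (E := E) (by omega)
  let v₀ : UT E M := W.mk p (fr (E := E) p ξ₀) (by rw [nm_fr, hξ])
  set o := EuclideanSpace.basisFun (Fin (finrank ℝ E)) ℝ with ho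
  obtain ⟨σ, h1, h2, h3⟩ := exists_solid o hN
  refine ⟨Form.pull (sc p) (map_sc p) σ, by rw [← Form.pull_d, h1, Co.pull_zero],
    h2.pull _ _, fun η hη => h3 ?_⟩
  have h4 : Form.pull (sd p v₀) (map_sd p v₀) (Form.pull (sc p) (map_sc p) σ) =
      Form.pull rad map_rad' σ := by
    refine Form.ext_val fun V _ _ _ u x hu => ?_
    rw [Form.pull_val _ _ hu, Form.pull_val _ _ (map_sd p v₀ hu), Form.pull_val _ _ hu]
    refine σ.congr (map_sc p (map_sd p v₀ hu)) ?_
    filter_upwards [hu.2] with y hy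
    exact sc_sd p v₀ hy
  rw [← h4, hη, Form.pull_d, sint_d]

end Sph

section Rank

variable {D : ℝ} {p : M} {n : ℕ}
  {Pi : TangentSpace 𝓘(ℝ, E) p → TangentSpace 𝓘(ℝ, E) p →L[ℝ] TangentSpace 𝓘(ℝ, E) p}
  {o : TangentSpace 𝓘(ℝ, E) p → Fm.Lam (TangentSpace 𝓘(ℝ, E) p)}

/-- forms of degree `dim M - 1` vanish on the cut locus -/
theorem cut_codim (hJ : LineP e D p n Pi o) (v₀ : UT E M) {k : ℕ} (hk0 : 0 < k)
    (hk : finrank ℝ E ≤ k + 1) {β : Form (dC e D p)} (hβ : Form.IsDeg k β) : β = 0 := by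
  have hq : ((dUT E M).on (up p)).Map (dC e D p) (bar e D) := Dif.map_quot
  set τ : Form ((dUT E M).on (up p)) := Form.pull (bar e D) hq β with hτ
  set σ : Form (dP (Eu E)) := Form.pull (sd p v₀) (map_sd p v₀) τ with hσ
  have hσk : Form.IsDeg k σ := (hβ.pull _ _).pull _ _
  set h := bun_Cut (e := e) (D := D) hJ v₀ with hh
  -- invariance under the normalisation
  have hr : Form.pull rad map_rad' σ = σ := by
    refine Form.ext_val fun V _ _ _ u x hu => ?_
    rw [Form.pull_val _ _ hu, hσ, Form.pull_val _ _ (map_rad' hu), Form.pull_val _ _ hu]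
    refine τ.congr (map_sd p v₀ (map_rad' hu)) ?_
    filter_upwards [hu.2] with y hy
    exact sd_rad p v₀ (u y) hy
  have hrv : ∀ ξ : Eu E, ξ ≠ 0 → σ.val id ξ =
      Fm.pull (fderiv ℝ (rad : Eu E → Eu E) ξ) (σ.val id (rad ξ)) := by
    intro ξ hξ
    have hry : rad ξ ≠ 0 := by
      rw [← norm_ne_zero_iff, Fm.norm_rad hξ]
      exact one_ne_zero
    have k1 : (dP (Eu E)).At (id : Eu E → Eu E) ξ := S2I.at_id hξ
    have k2 : (dP (Eu E)).At (id : Eu E → Eu E) (rad ξ) := S2I.at_id hry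
    have k3 := σ.nat (u := (id : Eu E → Eu E)) (g := (rad : Eu E → Eu E)) (x := ξ) k2
      (S2I.sm_rad hξ)
    rw [← k3]
    conv_lhs => rw [← hr]
    rw [Form.pull_val _ _ k1]
    rfl
  -- the value at a unit vector
  have key : ∀ ξ : Eu E, ‖ξ‖ = 1 → σ.val id ξ = 0 := by
    intro ξ hξ
    have hξ0 : ξ ≠ 0 := by
      rw [← norm_ne_zero_iff, hξ]
      exact one_ne_zero
    have kid : (dP (Eu E)).At (id : Eu E → Eu E) ξ := S2I.at_id hξ0
    set W : Lam (Eu E) := σ.val id ξ with hW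
    have hWk : W ∈ WF.hom (Eu E) k := DegC.toWF hσk kid
    have hW1 : Fm.iprod ξ W = 0 := by
      have h0 : Fm.iprod (0 : Eu E) (σ.val id (rad ξ)) = 0 := by
        have h1 := iprod_smul (0 : ℝ) (0 : Eu E) (σ.val id (rad ξ))
        rwa [zero_smul, zero_smul] at h1
      rw [hW, hrv ξ hξ0, pull_iprod, OS.fderiv_rad_self hξ0, h0, map_zero]
    -- the frames
    have ks : ((dUT E M).on (up p)).At (sd p v₀) ξ := map_sd p v₀ kid
    obtain ⟨L, hL, hLq⟩ := h.hq.lift (u := fun y => bar e D (sd p v₀ y)) (x := ξ) (hq ks)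
    obtain ⟨y, hy, hy2⟩ := h.lift (s := sd p v₀) (f := L) (x := ξ) ks hL hLq
    have hLS : Sm L ξ := hL.1
    have hLF : ∀ᶠ z in 𝓝 ξ, L z ∈ FrS n Pi o := hL.2
    have hLy : ∀ᶠ z in 𝓝 ξ, L z (y z) = fI (E := E) p (rad z) := by
      filter_upwards [hLF, hy2, isOpen_ne.mem_nhds hξ0] with z k1 k2 k3
      exact mkp_inj (by rw [k1.1, k2.1]) (norm_fI_rad p k3) k2.2
    have hyξ : ‖y ξ‖ = 1 := hy2.self_of_nhds.1
    have hyξ0 : y ξ ≠ 0 := ne_zero_of_nm hyξ
    -- a vertical direction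
    obtain ⟨w, hw1, hw2⟩ : ∃ w : Em n, ‖w‖ = 1 ∧ (inner ℝ (y ξ) w : ℝ) = 0 := by
      have h1 : 1 < finrank ℝ (Em n) := by
        rw [finrank_euclideanSpace, Fintype.card_fin]
        omega
      have h2 : 0 < finrank ℝ ((ℝ ∙ (y ξ))ᗮ : Submodule ℝ (Em n)) := by
        have h3 := Submodule.finrank_add_finrank_orthogonal (ℝ ∙ (y ξ))
        rw [finrank_span_singleton hyξ0] at h3
        omega
      have : Nontrivial ((ℝ ∙ (y ξ))ᗮ : Submodule ℝ (Em n)) :=
        nontrivial_of_finrank_pos (R := ℝ) h2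
      obtain ⟨w, hw⟩ := exists_norm_eq ((ℝ ∙ (y ξ))ᗮ : Submodule ℝ (Em n))
        (zero_le_one (α := ℝ))
      exact ⟨w, hw, Submodule.mem_orthogonal_singleton_iff_inner_right.1 w.2⟩
    -- the family of unit vectors
    set G : Eu E × Em n → Eu E := fun z => (fI (E := E) p).symm (L z.1 (rad z.2)) with hG
    set x₀ : Eu E × Em n := (ξ, y ξ) with hx₀
    have f1 : Tendsto (fun z : Eu E × Em n => z.1) (𝓝 x₀) (𝓝 ξ) := continuous_fst.tendsto x₀
    have f2 : ∀ᶠ z : Eu E × Em n in 𝓝 x₀, z.2 ≠ 0 :=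
      (continuous_snd.tendsto x₀).eventually (isOpen_ne.mem_nhds hyξ0)
    have hGs : Sm G x₀ := by
      filter_upwards [f1.eventually hLS, f2] with z k1 k2
      exact (fI (E := E) p).symm.contDiff.contDiffAt.comp z
        ((k1.comp z contDiffAt_fst).clm_apply ((contDiffAt_rad k2).comp z contDiffAt_snd))
    have hGn : ∀ᶠ z in 𝓝 x₀, ‖G z‖ = 1 := by
      filter_upwards [f1.eventually hLF, f2] with z k1 k2
      change ‖(fI (E := E) p).symm (L z.1 (rad z.2))‖ = 1
      refine ((fI (E := E) p).symm.norm_map (L z.1 (rad z.2))).trans ?_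
      rw [k1.1, Fm.norm_rad k2]
    have hG0 : G x₀ = ξ := by
      change (fI (E := E) p).symm (L ξ (rad (y ξ))) = ξ
      rw [rad_unit hyξ, hLy.self_of_nhds, LinearIsometryEquiv.symm_apply_apply, rad_unit hξ]
    have hGP : (dP (Eu E)).At G x₀ := ⟨hGs, hGn.mono fun z hz => ne_zero_of_nm hz⟩
    -- the plot of unit vectors
    set g : Eu E × Em n → UT E M := fun z => evC p v₀ n (L z.1, rad z.2) with hg
    have hgP : (SB (dFrS n Pi o) (Em n)).At (fun z : Eu E × Em n => (L z.1, rad z.2)) x₀ := by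
      refine ⟨⟨⟨?_, ?_⟩, ?_⟩, ?_⟩
      · show Sm (fun z : Eu E × Em n => L z.1) x₀
        filter_upwards [f1.eventually hLS] with z k1 using k1.comp z contDiffAt_fst
      · exact f1.eventually hLF
      · show Sm (fun z : Eu E × Em n => rad z.2) x₀
        filter_upwards [f2] with z k2 using (contDiffAt_rad k2).comp z contDiffAt_snd
      · filter_upwards [f2] with z k2
        show ‖rad z.2‖ = 1
        exact Fm.norm_rad k2
    have hgU : ((dUT E M).on (up p)).At g x₀ := h.hev hgP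
    have e1 : τ.val g x₀ = Fm.pull (ContinuousLinearMap.fst ℝ (Eu E) (Em n))
        (β.val (qC e D p n ∘ L) ξ) := by
      have k1 : (bar e D ∘ g) =ᶠ[𝓝 x₀] (qC e D p n ∘ L) ∘ Prod.fst := by
        filter_upwards [(SB (dFrS n Pi o) (Em n)).open' hgP] with z hz
        exact h.comm (u := fun z : Eu E × Em n => (L z.1, rad z.2)) hz
      have k2 : (dC e D p).At (qC e D p n ∘ L) ξ := h.hq.map hL
      have k3 := β.nat (u := qC e D p n ∘ L) (g := (Prod.fst : Eu E × Em n → Eu E)) (x := x₀) k2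
        (Sm.of_contDiff contDiff_fst _)
      rw [hτ, Form.pull_val _ _ hgU, β.congr (hq hgU) k1, k3, fderiv_fst]
    have e2 : τ.val g x₀ = Fm.pull (fderiv ℝ G x₀) W := by
      have k1 : σ.val G x₀ = τ.val g x₀ := by
        rw [hσ, Form.pull_val _ _ hGP]
        refine τ.congr (map_sd p v₀ hGP) ?_
        filter_upwards [hGn] with z hz
        change mkp p v₀ (fI (E := E) p (rad (G z))) = mkp p v₀ (L z.1 (rad z.2))
        rw [rad_unit hz]
        change mkp p v₀ (fI (E := E) p ((fI (E := E) p).symm (L z.1 (rad z.2)))) = _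
        rw [LinearIsometryEquiv.apply_symm_apply]
      have k2 := σ.nat (u := (id : Eu E → Eu E)) (g := G) (x := x₀) (by rw [hG0]; exact kid) hGs
      rw [← k1, hW]
      rw [hG0] at k2
      exact k2
    set b : Eu E := (fI (E := E) p).symm (L ξ w) with hb
    -- the derivative in the vertical direction
    obtain ⟨ρ, hρ⟩ := hasFDerivAt_rad hyξ0
    have e3 : fderiv ℝ G x₀ (0, w) = b + ρ w • ξ := by
      have k1 : HasFDerivAt G (fderiv ℝ G x₀) x₀ := hGs.differentiableAt.hasFDerivAt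
      have k2 : HasFDerivAt (fun z : Em n => G (ξ, z)) ((fderiv ℝ G x₀).comp
          (ContinuousLinearMap.inr ℝ (Eu E) (Em n))) (y ξ) :=
        HasFDerivAt.comp (g := G) (y ξ) k1 (hasFDerivAt_prodMk_right ξ (y ξ))
      let A : TangentSpace 𝓘(ℝ, E) p →L[ℝ] Eu E :=
        ((fI (E := E) p).symm.toContinuousLinearEquiv : TangentSpace 𝓘(ℝ, E) p →L[ℝ] Eu E)
      have k3 : HasFDerivAt (fun z : Em n => G (ξ, z)) ((A.comp (L ξ)).comp
            (‖y ξ‖⁻¹ • ContinuousLinearMap.id ℝ (Em n) + ρ.smulRight (y ξ))) (y ξ) :=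
        HasFDerivAt.comp (g := fun z : Em n => A (L ξ z)) (y ξ)
          ((A.comp (L ξ)).hasFDerivAt) hρ
      have k4 := congrArg (fun f : Em n →L[ℝ] Eu E => f w) (k2.unique k3)
      have k5 : fderiv ℝ G x₀ (0, w) = (fI (E := E) p).symm
          (L ξ (‖y ξ‖⁻¹ • w + ρ w • y ξ)) := k4
      have k6 : (fI (E := E) p).symm (L ξ (y ξ)) = ξ := by
        rw [hLy.self_of_nhds, LinearIsometryEquiv.symm_apply_apply, rad_unit hξ]
      rw [k5, hyξ, inv_one, one_smul, map_add, map_add, map_smul, map_smul, k6]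
    have e4 : Fm.pull (fderiv ℝ G x₀) (Fm.iprod b W) = 0 := by
      have k1 := congrArg (Fm.iprod ((0 : Eu E), w)) (e1.symm.trans e2)
      rw [pull_iprod, pull_iprod, e3, iprod_add, iprod_smul, hW1, smul_zero, add_zero] at k1
      have k2 : Fm.iprod (ContinuousLinearMap.fst ℝ (Eu E) (Em n) ((0 : Eu E), w))
          (β.val (qC e D p n ∘ L) ξ) = 0 := by
        have h1 := iprod_smul (0 : ℝ) (0 : Eu E) (β.val (qC e D p n ∘ L) ξ)
        rwa [zero_smul, zero_smul] at h1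
      rw [k2, map_zero] at k1
      exact k1.symm
    -- the section
    have e5 : Fm.iprod b W = 0 := by
      have k1 : HasFDerivAt (fun z : Eu E => (z, y z)) ((ContinuousLinearMap.id ℝ (Eu E)).prod
          (fderiv ℝ y ξ)) ξ := (hasFDerivAt_id ξ).prodMk hy.differentiableAt.hasFDerivAt
      have k2 : HasFDerivAt (fun z : Eu E => G (z, y z)) ((fderiv ℝ G x₀).comp
          ((ContinuousLinearMap.id ℝ (Eu E)).prod (fderiv ℝ y ξ))) ξ :=
        HasFDerivAt.comp (g := G) ξ hGs.differentiableAt.hasFDerivAt k1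
      have k3 : (fun z : Eu E => G (z, y z)) =ᶠ[𝓝 ξ] rad := by
        filter_upwards [hLy, hy2] with z k1 k2
        change (fI (E := E) p).symm (L z (rad (y z))) = rad z
        rw [rad_unit k2.1, k1, LinearIsometryEquiv.symm_apply_apply]
      have k4 : fderiv ℝ (rad : Eu E → Eu E) ξ = (fderiv ℝ G x₀).comp
          ((ContinuousLinearMap.id ℝ (Eu E)).prod (fderiv ℝ y ξ)) := by
        rw [← k3.fderiv_eq, k2.fderiv]
      obtain ⟨j, rfl⟩ : ∃ j, k = j + 1 := ⟨k - 1, by omega⟩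
      have k5 := pull_rad_of hξ0 (WF.iprod_mem_hom b hWk) (by
        rw [iprod_anticomm, hW1, map_zero, neg_zero])
      rw [k4, pull_comp_apply, e4, map_zero, hξ, inv_one, one_pow, one_smul] at k5
      exact k5.symm
    have hb1 : ‖b‖ = 1 := by
      refine ((fI (E := E) p).symm.norm_map (L ξ w)).trans ?_
      rw [hLF.self_of_nhds.1, hw1]
    have hb2 : (inner ℝ ξ b : ℝ) = 0 := by
      have k6 : ξ = (fI (E := E) p).symm (L ξ (y ξ)) := by
        rw [hLy.self_of_nhds, LinearIsometryEquiv.symm_apply_apply, rad_unit hξ]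
      have k7 : (inner ℝ ((fI (E := E) p).symm (L ξ (y ξ))) b : ℝ) =
          inner ℝ (L ξ (y ξ)) (L ξ w) := (fI (E := E) p).symm.inner_map_map _ _
      rw [← k6] at k7
      rw [k7, iso_inner hLF.self_of_nhds.1, hw2]
    exact eq_zero_of_two hξ hb1 hb2 (by rw [finrank_euclideanSpace, Fintype.card_fin]; exact hk)
      hWk hW1 e5
  have hσ0 : σ = 0 := ext_id ne_open fun ξ hξ => by
    rw [hrv ξ hξ, key _ (Fm.norm_rad hξ), map_zero, Form.zero_val]
  have hτ0 : τ = 0 := by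
    have h1 : Form.pull (sc p) (map_sc p) σ = τ := by
      refine Form.ext_val fun V _ _ _ u x hu => ?_
      rw [Form.pull_val _ _ hu, hσ, Form.pull_val _ _ (map_sc p hu)]
      refine (τ.congr hu ?_).symm
      filter_upwards [hu.2] with y hy
      exact (sd_sc p v₀ hy).symm
    rw [← h1, hσ0, Co.pull_zero]
  refine Form.pull_quot_inj (D := (dUT E M).on (up p)) (q := bar e D) ?_
  exact hτ0.trans (Co.pull_zero _).symm

end Rank

/-- **S2-DIM**: the dimension of the planes divides the dimension of `M` -/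
theorem dvd_finrank (F : Facts e) {D : ℝ} (hD : 0 < D) (hB : InjGE e D)
    (hdiam : ∀ p q : M, dist p q ≤ D) {n : ℕ}
    (hl : ∀ x y : M, dist x y = D → finrank ℝ (Pl e D x y) = 2 * n + 2)
    (hN : 3 ≤ finrank ℝ E) : (2 * n + 2) ∣ finrank ℝ E := by
  by_contra hnd
  obtain ⟨p⟩ : Nonempty M := inferInstance
  obtain ⟨o, hJ⟩ := FE.exists_line F hD hB hdiam hl hN p
  obtain ⟨ρ, r₀, hρ⟩ := WQ.exists_rho (E := E) (p := p) hD
  obtain ⟨ξ₀, hξ⟩ := CoU.exists_unit (E := E) (by omega)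
  let v₀ : UT E M := W.mk p (fr (E := E) p ξ₀) (by rw [nm_fr, hξ])
  have hle : 2 * n + 2 ≤ finrank ℝ E := by
    have h1 : vp p v₀ ≠ 0 := ne_zero_of_nm (norm_vp (p := p) (w := v₀) rfl)
    rw [← hJ.os.sp.rank (vp p v₀) h1]
    exact Submodule.finrank_le (R := ℝ) (M := TangentSpace 𝓘(ℝ, E) p) _
  set h := bun_Cut (e := e) (D := D) hJ v₀ with hh
  obtain ⟨ψ, c, hψ⟩ := ang_Cut F hD hB hdiam hl hJ hρ 1 v₀ (by omega) one_ne_zero
  obtain ⟨w, hw, hwk, hne⟩ := exists_top_up (E := E) p (by omega)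
  -- the fibre integral is exact
  obtain ⟨j, hj⟩ : ∃ j, finrank ℝ E = (j + 1) + (2 * n + 2) := by
    rcases Nat.eq_zero_or_pos (finrank ℝ E - (2 * n + 2)) with h0 | h0
    · exact absurd ⟨1, by omega⟩ hnd
    · exact ⟨finrank ℝ E - (2 * n + 2) - 1, by omega⟩
  have hSd : (h.SI (bE n) w).d = 0 := h.SI_closed (bE n) hw
  have hSk : Form.IsDeg (j + 1) (h.SI (bE n) w) := h.isDeg_SI (bE n) hwk (by omega)
  obtain ⟨c', γ₀, hγ₀, hc'⟩ := h.base_cohom (bE n) (by omega) hψ (n₀ := finrank ℝ E - 1)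
    (const_up F hD hB p (by omega)) (exact_up F hD hB p) (j + 1) (h.SI (bE n) w) (by omega) hSd hSk
  have hnd' : ¬ (2 * n + 2) ∣ (j + 1) := by
    intro h1
    apply hnd
    rw [hj]
    exact Dvd.dvd.add h1 dvd_rfl
  rw [hc' hnd', zero_smul, zero_add] at hγ₀
  set γ : Form (dC e D p) := Form.part j γ₀ with hγ
  have hγd : γ.d = h.SI (bE n) w := by
    rw [hγ, ← Form.part_succ_d, ← hγ₀]
    exact hSk
  have hγk : Form.IsDeg j γ := Form.isDeg_part j γ₀
  -- the correction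
  set κ : Form ((dUT E M).on (up p)) := ψ * Form.pull (bar e D) h.hπ γ with hκ
  have hκk : Form.IsDeg (finrank ℝ E - 2) κ :=
    Co.degc (hψ.deg.mul (hγk.pull _ _)) (by omega)
  have hSκ : h.SI (bE n) κ.d = -γ.d := by
    rw [h.SI_d, hκ, h.SI_mul_π, hψ.one, one_mul, Odd.neg_one_pow ⟨n + 1, by ring⟩, neg_smul,
      one_smul]
  have hdeg : Form.IsDeg (finrank ℝ E - 1) (w + κ.d) :=
    hwk.add (Co.degc hκk.d (by omega))
  obtain ⟨a, κ', ha, hak, he, -⟩ := h.gysin2 (bE n) hψ (by omega) (σ := w + κ.d)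
    (by rw [Form.d_add, hw, Form.d_d, add_zero]) (by rw [h.SI_add, hSκ, ← hγd, add_neg_cancel])
    hdeg
  have ha0 : a = 0 := cut_codim hJ v₀ (by omega) (by omega) hak
  rw [ha0, Co.pull_zero, zero_add] at he
  refine hne (κ' - κ) ?_
  rw [Form.d_sub, ← he]
  abel

end

end Vale.Agent.P231.CoZ
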