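import Vale.Agent.P231.CoZ.BunZ
import Vale.Agent.P231.Co.M5

/-!
# P231, stage 2, S2-M (M4): the cohomology of `M` below the degree `dim M - 1`
-/

set_option maxSynthPendingDepth 3
set_option linter.unusedSectionVars false
set_option linter.unusedVariables false

open Bundle Manifold Set Filter Module MeasureTheory
open scoped ContDiff Manifold Topology

namespace Vale.Agent.P231.CoZ

noncomputable section

open Vale.Agent.P234 Vale.Agent.P231 Vale.Agent.P231.Fm Vale.Agent.P231.W Vale.Agent.P231.WR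
open Vale.Agent.P231.S2II

variable {E : Type*} [NormedAddCommGroup E] [NormedSpace ℝ E]
  {M : Type*} [MetricSpace M] [ChartedSpace E M]
  [RiemannianBundle (fun x : M => TangentSpace 𝓘(ℝ, E) x)]
  {e : ∀ x : M, TangentSpace 𝓘(ℝ, E) x → M}
  [FiniteDimensional ℝ E] [IsManifold 𝓘(ℝ, E) ∞ M]
  [IsContMDiffRiemannianBundle 𝓘(ℝ, E) ∞ E (fun x : M => TangentSpace 𝓘(ℝ, E) x)]
  [CompactSpace M] [ConnectedSpace M] [IsRiemannianManifold 𝓘(ℝ, E) M]

/-- the difference of the two pull-backs of a form on `M` to the space of cut pairs -/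
def cZ (F : Facts e) (D : ℝ) (G : Form (dM E M)) : Form (dZ e D) :=
  Form.pull Prod.snd (map_Zsnd F) G - Form.pull Prod.fst map_Zfst G

theorem pull_cZ (F : Facts e) (D : ℝ) (G : Form (dM E M)) :
    Form.pull (fb e D) map_fb (cZ F D G) =
      Form.pull (bar e D) (map_bar F D) G - Form.pull foot map_foot G := by
  rw [cZ, Co.pull_sub]
  congr 1
  · exact Form.pull2_one (f := fb e D) (g := Prod.snd) (g' := bar e D) _ _ _ (fun _ => rfl) G
  · exact Form.pull2_one (f := fb e D) (g := Prod.fst) (g' := foot) _ _ _ (fun _ => rfl) G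

section Main

variable (F : Facts e) {D : ℝ} (hD : 0 < D) (hB : InjGE e D) (hdiam : ∀ p q : M, dist p q ≤ D)
  {l : ℕ} [NeZero l] (hP : ∀ x y : M, dist x y = D → finrank ℝ (H775.Pl e D x y) = l + 1)

/-- the cut pairs with first point `p` -/
abbrev Ap (p : M) : Set (M × M) := {z | z.1 = p}

theorem fb_preimage (p : M) : fb e D ⁻¹' (Ap p) = CoC.up p := rfl

/-- a form of positive degree vanishes on constant plots -/
theorem val_const {X : Type*} {DX : Dif X} {w : Form DX} {j : ℕ} (hw : Form.IsDeg (j + 1) w)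
    {V : Type} [NormedAddCommGroup V] [NormedSpace ℝ V] [FiniteDimensional ℝ V] {p : X} {x : V}
    (h : DX.At (fun _ : V => p) x) : w.val (fun _ : V => p) x = 0 := by
  have h1 : (fun _ : V => p) = (fun _ : V => p) ∘ fun _ : V => x := rfl
  have h2 := w.nat (u := fun _ : V => p) (g := fun _ : V => x) (x := x) h
    (Sm.of_contDiff contDiff_const _)
  have h3 : fderiv ℝ (fun _ : V => x) x = 0 := by simp
  rw [← h1, h3, Co.pull_zero_clm, ← WA.prt_zero] at h2
  have h4 : WA.prt (j + 1) (w.val (fun _ : V => p) x) = w.val (fun _ : V => p) x := by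
    rw [← Form.part_val, hw.part_eq]
  have h5 : WA.prt 0 (w.val (fun _ : V => p) x) = 0 :=
    WA.prt_of_eq_of_ne (by omega) h4
  rw [h2, h5]

theorem map_Asnd (F : Facts e) (p : M) : ((dZ e D).on (Ap p)).Map (dM E M) Prod.snd :=
  Dif.Map.on (map_Zsnd F) (Ap p)

theorem map_pq (p : M) : (CoC.dC e D p).Map ((dZ e D).on (Ap p)) (fun q => (p, q)) :=
  fun {V} _ _ _ {u x} hu => by
    obtain ⟨v, h1, h2⟩ := hu
    refine ⟨⟨v, ?_, h2.1⟩, Eventually.of_forall fun y => rfl⟩
    filter_upwards [h1, h2.2] with y h3 h4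
    have h5 : bar e D (v y) = u y := h3
    have h6 : foot (v y) = p := h4
    change (foot (v y), bar e D (v y)) = (p, u y)
    rw [h5, h6]

theorem res_cZ (F : Facts e) (p : M) {G : Form (dM E M)} {j : ℕ} (hG : Form.IsDeg (j + 1) G) :
    Form.res (Ap p) (cZ F D G) = Form.pull Prod.snd (map_Asnd F p) G :=
  Form.ext_val fun V _ _ _ u x hu => by
    rw [Form.res_val _ hu, cZ, Form.sub_val, Form.pull_val _ _ hu.1, Form.pull_val _ _ hu.1,
      Form.pull_val _ _ hu]
    have h1 : (dM E M).At (fun _ : V => p) x := (dM E M).congr (map_Zfst hu.1)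
      (hu.2.mono fun y hy => hy)
    have h2 : G.val (Prod.fst ∘ u) x = G.val (fun _ : V => p) x :=
      G.congr (map_Zfst hu.1) (hu.2.mono fun y hy => hy)
    rw [h2, val_const hG h1, sub_zero]

include F hD hB hdiam hP in
/-- the orientation form is an angular form over `p`, up to a constant -/
theorem exists_ang (hl : Odd l) (hN : 1 < finrank ℝ E) {b : Form (dUT E M)}
    {G : Form (dM E M)} (hdeg : Form.IsDeg l b)
    (hb : b.d = Form.pull (bar e D) (map_bar F D) G - Form.pull foot map_foot G)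
    (hG : Form.IsDeg (l + 1) G) (hne : ∀ f : Fr e D l, kfP b f ≠ 0)
    (hbZ : OrnZ l b (cZ F D G)) (p : M) : ∃ k : ℝ, k ≠ 0 ∧
      ((bun_Z F hD hB hdiam hP hbZ hl).on (Ap p)).Ang (bas (l + 1))
        (k⁻¹ • Form.res (fb e D ⁻¹' Ap p) b) (-(k⁻¹ • Form.res (Ap p) (cZ F D G))) := by
  have hl0 := NeZero.pos l
  set h := (bun_Z F hD hB hdiam hP hbZ hl).on (Ap p) with hh
  set ψ₀ : Form ((dUT E M).on (fb e D ⁻¹' Ap p)) := Form.res (fb e D ⁻¹' Ap p) b with hψ₀
  have hψd : ψ₀.d = Form.pull (fb e D) h.hπ (Form.res (Ap p) (cZ F D G)) := by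
    rw [hψ₀, Form.res_d, hbZ.d]
    refine Form.ext_val fun V _ _ _ u x hu => ?_
    rw [Form.res_val _ hu, Form.pull_val _ _ hu.1, Form.pull_val _ _ hu,
      Form.res_val _ (h.hπ hu)]
  have hψdeg : Form.IsDeg l ψ₀ := hdeg.pull _ _
  have h0 : Form.IsDeg 0 (h.SI (bas (l + 1)) ψ₀) := h.isDeg_SI _ hψdeg (by omega)
  have h1 : (h.SI (bas (l + 1)) ψ₀).d = 0 := by
    have h2 := h.SI_d (bas (l + 1)) ψ₀
    rw [hψd, h.SI_pull_zero _ (by omega)] at h2
    exact (smul_eq_zero.1 h2.symm).resolve_left (pow_ne_zero _ (by norm_num))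
  obtain ⟨k, hk⟩ := h.const_base (bas (l + 1)) (by omega)
    (fun σ hσ hσ0 => CoC.const_up F hD hB p hN σ hσ0 hσ) h1 h0
  have hk0 : k ≠ 0 := by
    rintro rfl
    -- a frame over `p`
    obtain ⟨ξ₀, hξ⟩ := CoU.exists_unit (E := E) (by omega)
    let v₀ : UT E M := W.mk p (fr (E := E) p ξ₀) (by rw [nm_fr, hξ])
    have hv₀ : (dUT E M).At (fun _ : ℝ => v₀) 0 :=
      Eventually.of_forall fun y => contMDiffAt_const
    have hu : ((dZ e D).on (Ap p)).At (fun _ : ℝ => fb e D v₀) 0 :=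
      ⟨⟨fun _ => v₀, EventuallyEq.rfl, hv₀⟩, Eventually.of_forall fun y => rfl⟩
    obtain ⟨f, hf, hfu⟩ := h.hq.lift hu
    have h2 := congrArg (fun a : Form ((dFoP e D l b).on (fq ⁻¹' Ap p)) => a.val f 0)
      (h.pull_SI (bas (l + 1)) ψ₀)
    rw [hk, zero_smul, Co.pull_zero] at h2
    have h3 : (0 : Lam ℝ) = ((Co.si (bas (l + 1)) (Form.pull evP h.hev ψ₀)).val f 0 : Lam ℝ) := h2
    have hi : ((dFoP e D l b).on (fq ⁻¹' Ap p)).Map (dFr e D l) id := fun h => h.1.1
    have h4 := Co.si_nat (bas (l + 1)) hi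
      (Form.pull evP (map_evP (e := e) (D := D) (l := l)) b)
    have h5 : Form.pull (fun q : Fr e D l × Eul (l + 1) => (id q.1, q.2)) (Co.map_SB hi)
        (Form.pull evP (map_evP (e := e) (D := D) (l := l)) b) = Form.pull evP h.hev ψ₀ := by
      refine Form.ext_val fun V _ _ _ u x hu => ?_
      rw [Form.pull_val _ _ hu, Form.pull_val _ _ (Co.map_SB hi hu), Form.pull_val _ _ hu, hψ₀,
        Form.res_val _ (h.hev hu)]
      rfl
    rw [h5] at h4
    rw [h4, Form.pull_val _ _ hf] at h3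
    have h6 : WF.ptv (frP b) (f 0) = aug ((frP b).val f 0) := WF.ptv_eq _ hf.1.1
    have h7 : (frP b : Form (dFr e D l)).val (id ∘ f) 0 = 0 := h3.symm
    have h8 : kfP b (f 0) = 0 := by
      rw [kfP, h6]
      have h9 : (frP b : Form (dFr e D l)).val f 0 = 0 := h7
      rw [h9, map_zero]
    exact hne _ h8
  refine ⟨k, hk0, ?_, ?_, ?_, ?_⟩
  · rw [Form.d_smul, hψd, Co.pull_neg, Co.pull_smul, neg_neg]
  · rw [h.SI_smul, hk, smul_smul, inv_mul_cancel₀ hk0, one_smul]
  · rw [Nat.add_sub_cancel]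
    exact hψdeg.smul _
  · have h2 : Form.IsDeg (l + 1) (Form.res (Ap p) (cZ F D G)) := by
      rw [res_cZ F p hG]
      exact hG.pull _ _
    exact (h2.smul _).neg

include F hD hB hdiam hP in
/-- **(M4)** below the degree `dim M - 1` the closed forms on `M` are the multiples of the powers
of `G`, up to exact forms -/
theorem gen_M (hl : Odd l) {b : Form (dUT E M)} {G : Form (dM E M)} (hdeg : Form.IsDeg l b)
    (hb : b.d = Form.pull (bar e D) (map_bar F D) G - Form.pull foot map_foot G)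
    (hG : Form.IsDeg (l + 1) G) (hGd : G.d = 0) (hne : ∀ f : Fr e D l, kfP b f ≠ 0) :
    CoC.Gen (dM E M) G (l + 1) (finrank ℝ E - 1) := by
  have hl0 := NeZero.pos l
  have hbZ : OrnZ l b (cZ F D G) := ⟨hdeg, by rw [hb, pull_cZ], hne⟩
  intro j w hj hw hwj
  rcases Nat.eq_zero_or_pos j with h0 | h0
  · subst h0
    obtain ⟨c, hc⟩ := CoC.const_M F w hwj hw
    refine ⟨c, 0, ?_, fun hh => absurd (dvd_zero _) hh⟩
    rw [Nat.zero_div, pow_zero, Form.d_zero, add_zero]
    exact hc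
  · obtain ⟨p⟩ : Nonempty M := inferInstance
    obtain ⟨k, hk, hA⟩ := exists_ang F hD hB hdiam hP hl (by omega) hdeg hb hG hne hbZ p
    set h := (bun_Z F hD hB hdiam hP hbZ hl).on (Ap p) with hh
    set g : Form ((dZ e D).on (Ap p)) := Form.pull Prod.snd (map_Asnd F p) G with hg
    have hres : Form.res (Ap p) (cZ F D G) = g := res_cZ F p hG
    obtain ⟨c, γ, hγ, hc⟩ := h.base_cohom (bas (l + 1)) (by omega) hA (n₀ := finrank ℝ E - 1)
      (CoC.const_up F hD hB p (by omega)) (CoC.exact_up F hD hB p) j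
      (Form.pull Prod.snd (map_Asnd F p) w) hj (by rw [← Form.pull_d, hw, Co.pull_zero])
      (hwj.pull _ _)
    set i := j / (l + 1) with hi
    set c' : ℝ := c * (-k⁻¹) ^ i with hc'
    have he : (-(k⁻¹ • Form.res (Ap p) (cZ F D G))) ^ i = (-k⁻¹) ^ i •
        Form.pull Prod.snd (map_Asnd F p) (G ^ i) := by
      have h1 : Form.pull Prod.snd (map_Asnd F p) (G ^ i) = g ^ i :=
        map_pow (Form.pullA Prod.snd (map_Asnd F p)) G i
      rw [h1, hres, ← neg_smul, smul_pow]
    rw [he, smul_smul, ← hc'] at hγ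
    set w₂ : Form (dM E M) := w - c' • G ^ i with hw₂
    have hGi : (G ^ i).d = 0 := by
      have key : ∀ n : ℕ, (G ^ n).d = 0 := by
        intro n
        induction n with
        | zero => rw [pow_zero, Form.d_one]
        | succ n ih => rw [pow_succ, Form.d_mul, ih, hGd, zero_mul, mul_zero, add_zero]
      exact key i
    have hw₂d : w₂.d = 0 := by
      rw [hw₂, Form.d_sub, hw, Form.d_smul, hGi, smul_zero, sub_zero]
    have hw₂j : Form.IsDeg j w₂ := by
      by_cases hdiv : (l + 1) ∣ j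
      · have h1 : Form.IsDeg j (G ^ i) := Co.degc (hG.pow i) (by
          rw [hi]
          exact Nat.mul_div_cancel' hdiv)
        exact hwj.sub (h1.smul c')
      · rw [hw₂, hc', hc hdiv, zero_mul, zero_smul, sub_zero]
        exact hwj
    have hpull : Form.pull Prod.snd (map_Asnd F p) w₂ = γ.d := by
      rw [hw₂, Co.pull_sub, Co.pull_smul, hγ]
      abel
    obtain ⟨Γ, hΓ⟩ := CoC.exact_of_cut F hD hB hdiam hP p h0 (by omega) hw₂d hw₂j
      (γ := Form.pull (fun q => (p, q)) (map_pq p) γ) (by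
        rw [← Form.pull_d, ← hpull]
        exact (Form.pull2_one (f := fun q : M => (p, q)) (g := Prod.snd) (g' := id) _ _ _
          (fun _ => rfl) w₂).symm)
    refine ⟨c', Γ, ?_, fun hh => by rw [hc', hc hh, zero_mul]⟩
    rw [← hΓ, hw₂]
    abel

end Main

end

end Vale.Agent.P231.CoZ
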