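import Vale.Agent.P231.S2II.BunSL
import Vale.Agent.P231.Co.Low

/-!
# P231, stage 2, S2-M (M4): the bundle `UT → Z` of unit spheres of the planes `P`: frames
-/

set_option maxSynthPendingDepth 3
set_option linter.unusedSectionVars false
set_option linter.unusedVariables false

open Bundle Manifold Set Filter Module MeasureTheory
open scoped ContDiff Manifold Topology

namespace Vale.Agent.P231.CoZ

noncomputable section

open Vale.Agent.P234 Vale.Agent.P231 Vale.Agent.P231.Fm Vale.Agent.P231.W Vale.Agent.P231.WR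
open Vale.Agent.P231.S2II

/-! ### the determinant of a matrix map -/

theorem det_mt {l : ℕ} (G : Fin l → Fin l → ℝ) :
    LinearMap.det ((mt G : Eul l →L[ℝ] Eul l) : Eul l →ₗ[ℝ] Eul l) =
      Matrix.det (Matrix.of G) := by
  rw [← LinearMap.det_toMatrix (bas l).toBasis]
  congr 1
  ext i j
  rw [LinearMap.toMatrix_apply, OrthonormalBasis.coe_toBasis, OrthonormalBasis.coe_toBasis_repr_apply,
    EuclideanSpace.basisFun_repr, EuclideanSpace.basisFun_apply]
  change mt G (EuclideanSpace.single j 1) i = G i j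
  rw [mt_apply, Finset.sum_eq_single j]
  · simp
  · intro b _ hb
    simp [hb]
  · intro h
    exact absurd (Finset.mem_univ j) h

variable {E : Type*} [NormedAddCommGroup E] [NormedSpace ℝ E]
  {M : Type*} [MetricSpace M] [ChartedSpace E M]
  [RiemannianBundle (fun x : M => TangentSpace 𝓘(ℝ, E) x)]
  {e : ∀ x : M, TangentSpace 𝓘(ℝ, E) x → M}
  [FiniteDimensional ℝ E] [IsManifold 𝓘(ℝ, E) ∞ M]
  [IsContMDiffRiemannianBundle 𝓘(ℝ, E) ∞ E (fun x : M => TangentSpace 𝓘(ℝ, E) x)]
  [CompactSpace M] [ConnectedSpace M] [IsRiemannianManifold 𝓘(ℝ, E) M]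

section Basic

variable {D : ℝ} {l : ℕ}

/-- the frame of the plane -/
def pv (f : Fr e D l) : Fin (l + 1) → UT E M := Fin.cons f.v f.W

@[simp] theorem pv_zero (f : Fr e D l) : pv f 0 = f.v := rfl

@[simp] theorem pv_succ (f : Fr e D l) (i : Fin l) : pv f i.succ = f.W i := rfl

theorem foot_pv (f : Fr e D l) (i : Fin (l + 1)) : foot (pv f i) = foot f.v := by
  refine Fin.cases rfl (fun j => ?_) i
  exact (f.isLF.isL j).foot_eq

theorem bar_pv (f : Fr e D l) (i : Fin (l + 1)) : bar e D (pv f i) = bar e D f.v := by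
  refine Fin.cases rfl (fun j => ?_) i
  exact (f.isLF.isL j).bar_eq

theorem ip_pv (f : Fr e D l) (i j : Fin (l + 1)) :
    ip (foot f.v) (vec' (pv f i)) (vec' (pv f j)) = if i = j then 1 else 0 := by
  refine Fin.cases ?_ (fun i => ?_) i
  · refine Fin.cases ?_ (fun j => ?_) j
    · rw [if_pos rfl]
      exact ip_vec' f.v
    · rw [if_neg (Fin.succ_ne_zero j).symm]
      exact (f.isLF.isL j).orth
  · refine Fin.cases ?_ (fun j => ?_) j
    · rw [if_neg (Fin.succ_ne_zero i), ip_comm']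
      exact (f.isLF.isL i).orth
    · rw [pv_succ, pv_succ, ip_W]
      simp only [Fin.succ_inj]

theorem at_pv {E' : Type} [NormedAddCommGroup E'] [NormedSpace ℝ E'] [FiniteDimensional ℝ E']
    {f : E' → Fr e D l} {x : E'} (hf : (dFr e D l).At f x) (i : Fin (l + 1)) :
    (dUT E M).At (fun s => pv (f s) i) x := by
  refine Fin.cases hf.1 (fun j => ?_) i
  exact hf.2 j

/-- the combination of the frame of the plane -/
def pb (f : Fr e D l) (y : Eul (l + 1)) : E := ∑ i, y i • vec' (pv f i)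

theorem ip_pb (f : Fr e D l) (i : Fin (l + 1)) (y : Eul (l + 1)) :
    ip (foot f.v) (vec' (pv f i)) (pb f y) = y i := by
  rw [pb, ip_sum_right]
  simp only [ip_smul_right', ip_pv]
  simp

theorem ip_pb_pb (f : Fr e D l) (y z : Eul (l + 1)) :
    ip (foot f.v) (pb f y) (pb f z) = inner ℝ y z := by
  conv_lhs => rw [pb, ip_sum_left]
  simp only [ip_smul_left', ip_pb]
  rw [EuclideanSpace.inner_eq_star_dotProduct]
  simp [dotProduct, mul_comm]

theorem pb_mem (f : Fr e D l) (y : Eul (l + 1)) :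
    (pb (E := E) f y : TangentSpace 𝓘(ℝ, E) (foot f.v)) ∈
      H775.Pl e D (bar e D f.v) (foot f.v) := by
  have h0 : ∀ i, (vec' (E := E) (pv f i) : TangentSpace 𝓘(ℝ, E) (foot f.v)) ∈
      H775.Pl e D (bar e D f.v) (foot f.v) := by
    intro i
    refine Fin.cases ?_ (fun j => ?_) i
    · exact H775.Lk_subset_Pl D _ _ (mem_Lk_self D f.v)
    · exact H775.Lk_subset_Pl D _ _ (f.isLF.isL j).mem_Lk
  have h1 : (∑ i, (y i • (vec' (E := E) (pv f i) : TangentSpace 𝓘(ℝ, E) (foot f.v))) :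
      TangentSpace 𝓘(ℝ, E) (foot f.v)) ∈ H775.Pl e D (bar e D f.v) (foot f.v) :=
    Submodule.sum_mem _ fun i _ => Submodule.smul_mem _ _ (h0 i)
  exact h1

theorem nm_pb (f : Fr e D l) {y : Eul (l + 1)} (hy : ‖y‖ = 1) :
    nm (foot f.v) (pb f y) = 1 := by
  refine nm_eq_one ?_
  rw [ip_pb_pb, real_inner_self_eq_norm_sq, hy, one_pow]

/-- the coordinates of a vector -/
def pc (f : Fr e D l) (a : E) : Eul (l + 1) :=
  WithLp.toLp 2 fun i => ip (foot f.v) (vec' (pv f i)) a

theorem pc_apply (f : Fr e D l) (a : E) (i : Fin (l + 1)) :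
    pc f a i = ip (foot f.v) (vec' (pv f i)) a := rfl

theorem pc_pb (f : Fr e D l) (y : Eul (l + 1)) : pc f (pb f y) = y := by
  ext i
  rw [pc_apply, ip_pb]

open Classical in
/-- evaluation of the frames of the planes -/
def evP (z : Fr e D l × Eul (l + 1)) : UT E M :=
  if h : ‖z.2‖ = 1 then W.mk (foot z.1.v) (pb z.1 z.2) (nm_pb z.1 h) else z.1.v

theorem evP_of (f : Fr e D l) {y : Eul (l + 1)} (h : ‖y‖ = 1) :
    evP (f, y) = W.mk (foot f.v) (pb f y) (nm_pb f h) := dif_pos h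

@[simp] theorem foot_evP (z : Fr e D l × Eul (l + 1)) : foot (evP z) = foot z.1.v := by
  by_cases h : ‖z.2‖ = 1
  · have h1 : evP z = W.mk (foot z.1.v) (pb z.1 z.2) (nm_pb z.1 h) := dif_pos h
    rw [h1]
    rfl
  · rw [evP, dif_neg h]

theorem map_evP : (Co.SB (dFr e D l) (Eul (l + 1))).Map (dUT E M) evP :=
  fun {E'} _ _ _ {u x} h => by
    refine at_sum (u := fun s => (u s).1.v) (W := fun i s => pv (u s).1 i)
      (c := fun i s => (u s).2 i) h.1.1.1 (fun i => at_pv h.1.1 i)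
      (fun i => Eventually.of_forall fun s => foot_pv _ _) (fun i => ?_) ?_
    · have h1 : Sm (fun s => (u s).2) x := h.1.2
      exact Sm.comp (f := fun z : Eul (l + 1) => z i) (g := fun s => (u s).2)
        (Sm.of_contDiff (EuclideanSpace.proj (𝕜 := ℝ) i).contDiff _) h1
    · filter_upwards [h.2] with s hs
      have hs' : ‖(u s).2‖ = 1 := hs
      have h2 : evP (u s) = W.mk (foot (u s).1.v) (pb (u s).1 (u s).2) (nm_pb _ hs') := dif_pos hs'
      change foot (evP (u s)) = _ ∧ vec' (evP (u s)) = _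
      rw [h2]
      exact ⟨rfl, rfl⟩

/-- the transition matrix of two frames of a plane -/
def pt (f f' : Fr e D l) (i j : Fin (l + 1)) : ℝ :=
  ip (foot f.v) (vec' (pv f i)) (vec' (pv f' j))

theorem sm_pt {E' : Type} [NormedAddCommGroup E'] [NormedSpace ℝ E']
    [FiniteDimensional ℝ E'] {f f' : E' → Fr e D l} {x : E'} (hf : (dFr e D l).At f x)
    (hf' : (dFr e D l).At f' x)
    (hff : ∀ᶠ s in 𝓝 x, foot (f s).v = foot (f' s).v) (i j : Fin (l + 1)) :
    Sm (fun s => pt (f s) (f' s) i j) x := by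
  refine sm_ip' (u := fun s => (f s).v) (at_pv hf i) (at_pv hf' j)
    (Eventually.of_forall fun s => foot_pv _ _) ?_
  filter_upwards [hff] with s hs
  change foot (pv (f' s) j) = foot (f s).v
  rw [foot_pv, hs]

end Basic

section Plane

variable (F : Facts e) {D : ℝ} (hD : 0 < D) (hB : InjGE e D) (hdiam : ∀ p q : M, dist p q ≤ D)
  {l : ℕ} (hP : ∀ x y : M, dist x y = D → finrank ℝ (H775.Pl e D x y) = l + 1)

include F hD hB hdiam

theorem bar_evP (z : Fr e D l × Eul (l + 1)) : bar e D (evP z) = bar e D z.1.v := by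
  by_cases h : ‖z.2‖ = 1
  · have h1 : evP z = W.mk (foot z.1.v) (pb z.1 z.2) (nm_pb z.1 h) := dif_pos h
    rw [h1]
    exact ((H775.mem_Lk_iff F hD hB hdiam (dist_bar' F hD hB z.1.v)).2
      ⟨nm_pb z.1 h, pb_mem z.1 z.2⟩).2
  · rw [evP, dif_neg h]

include hP

theorem pb_pc (f : Fr e D l) {a : E}
    (ha : (a : TangentSpace 𝓘(ℝ, E) (foot f.v)) ∈ H775.Pl e D (bar e D f.v) (foot f.v)) :
    pb f (pc f a) = a := by
  have h2 := f.isLF.sum_eq F hD hB hdiam hP ha
  conv_rhs => rw [h2]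
  rw [pb, Fin.sum_univ_succ]
  rfl

/-- a unit vector with the same footpoint and the same end point is a combination -/
theorem mem_of_eq (f : Fr e D l) {u : UT E M} (h1 : foot u = foot f.v)
    (h2 : bar e D u = bar e D f.v) :
    (vec' (E := E) u : TangentSpace 𝓘(ℝ, E) (foot f.v)) ∈
      H775.Pl e D (bar e D f.v) (foot f.v) := by
  have key : ∀ (x y : M), foot u = x → bar e D u = y →
      (vec' (E := E) u : TangentSpace 𝓘(ℝ, E) x) ∈ H775.Pl e D y x := by
    rintro x y rfl rfl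
    exact H775.Lk_subset_Pl D _ _ (mem_Lk_self D u)
  exact key _ _ h1 h2

theorem pb_pt {f f' : Fr e D l} (h1 : foot f.v = foot f'.v) (h2 : bar e D f.v = bar e D f'.v)
    (y : Eul (l + 1)) : pb f' y = pb f (mt (pt f f') y) := by
  have h0 : (pb (E := E) f' y : TangentSpace 𝓘(ℝ, E) (foot f.v)) ∈
      H775.Pl e D (bar e D f.v) (foot f.v) := by
    have h3 := pb_mem (E := E) f' y
    rw [← h2] at h3
    have key : ∀ (x x' : M), x' = x → ∀ a : E,
        (a : TangentSpace 𝓘(ℝ, E) x') ∈ H775.Pl e D (bar e D f.v) x' →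
        (a : TangentSpace 𝓘(ℝ, E) x) ∈ H775.Pl e D (bar e D f.v) x := by
      rintro x x' rfl a ha
      exact ha
    exact key _ _ h1.symm _ h3
  rw [← pb_pc F hD hB hdiam hP f h0]
  congr 1
  ext i
  rw [mt_apply, pc_apply, pb, ip_sum_right]
  refine Finset.sum_congr rfl fun j _ => ?_
  rw [ip_smul_right', pt, mul_comm]

theorem norm_pt {f f' : Fr e D l} (h1 : foot f.v = foot f'.v) (h2 : bar e D f.v = bar e D f'.v)
    (y : Eul (l + 1)) : ‖mt (pt f f') y‖ = ‖y‖ := by
  have h3 : ‖mt (pt f f') y‖ ^ 2 = ‖y‖ ^ 2 := by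
    rw [← real_inner_self_eq_norm_sq, ← real_inner_self_eq_norm_sq, ← ip_pb_pb f,
      ← pb_pt F hD hB hdiam hP h1 h2, h1, ip_pb_pb]
  exact (sq_eq_sq₀ (norm_nonneg _) (norm_nonneg _)).1 h3

end Plane

end

end Vale.Agent.P231.CoZ
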