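import Vale.Agent.P231.Co.Top
import Vale.Agent.P231.Co.AngC
import Vale.Agent.P231.FE.Std
import Vale.Agent.P231.FE.Lin
import Vale.Agent.P231.H649.FibA

/-!
# P231, S2-DIM (1): the solid angle form, and covectors with two dimensional kernel
-/

set_option maxSynthPendingDepth 3
set_option linter.unusedSectionVars false
set_option linter.unusedVariables false

open MeasureTheory Set Module Filter Topology Metric
open scoped ContDiff

namespace Vale.Agent.P231.CoZ

noncomputable section

open Vale.Agent.P231.Fm Vale.Agent.P231.FE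
open Vale.Agent.P231.S2I (chF cut_chF contDiff_chF sint sint_eq map_rad' dPt Pt ofOn ext_id)
open Vale.Agent.P231.Q (dR Cut)
open Vale.Agent.P231.S2I (dP)

section Lin

variable {T : Type*} [NormedAddCommGroup T] [InnerProductSpace ℝ T] [FiniteDimensional ℝ T]

/-- the derivative of the normalisation -/
theorem hasFDerivAt_rad {y : T} (hy : y ≠ 0) : ∃ ρ : T →L[ℝ] ℝ,
    HasFDerivAt (rad : T → T) (‖y‖⁻¹ • ContinuousLinearMap.id ℝ T + ρ.smulRight y) y := by
  have h3 : DifferentiableAt ℝ (fun y : T => ‖y‖⁻¹) y :=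
    (((contDiffAt_norm ℝ hy).differentiableAt (n := ∞) (by simp)).inv (norm_ne_zero_iff.2 hy))
  refine ⟨fderiv ℝ (fun y : T => ‖y‖⁻¹) y, ?_⟩
  exact h3.hasFDerivAt.smul (hasFDerivAt_id y)

theorem pull_id' (w : Lam T) : Fm.pull (ContinuousLinearMap.id ℝ T) w = w := by
  rw [Fm.pull_id]
  rfl

/-- the normalisation acts by scaling on covectors which are killed by the radial direction -/
theorem pull_rad_of {y : T} (hy : y ≠ 0) {k : ℕ} {w : Lam T} (hw : w ∈ WF.hom T k)
    (h0 : Fm.iprod y w = 0) : Fm.pull (fderiv ℝ (rad : T → T) y) w = (‖y‖⁻¹) ^ k • w := by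
  obtain ⟨ρ, hρ⟩ := hasFDerivAt_rad hy
  rw [hρ.fderiv, H649.pull_rad_hom _ _ _ hw h0, pull_id']

/-- a covector of codegree one killed by two orthogonal vectors vanishes -/
theorem eq_zero_of_two {a b : T} (ha : ‖a‖ = 1) (hb : ‖b‖ = 1) (hab : (inner ℝ a b : ℝ) = 0)
    {k : ℕ} (hk : finrank ℝ T ≤ k + 1) {W : Lam T} (hW : W ∈ WF.hom T k)
    (h1 : Fm.iprod a W = 0) (h2 : Fm.iprod b W = 0) : W = 0 := by
  have k1 : Fm.dx (innerSL ℝ a) * (Fm.dx (innerSL ℝ b) * W) = 0 := by
    refine WF.eq_zero_of_mem_hom (k := 1 + (1 + k)) (by omega) ?_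
    exact WF.mul_mem_hom (WF.dx_mem_hom _) (WF.mul_mem_hom (WF.dx_mem_hom _) hW)
  have k2 : Fm.iprod a (Fm.dx (innerSL ℝ b) * W) = 0 := by
    rw [iprod_dx_mul, h1, mul_zero, sub_zero, innerSL_apply_apply, real_inner_comm, hab, zero_smul]
  have k3 := congrArg (Fm.iprod a) k1
  rw [iprod_dx_mul, k2, mul_zero, sub_zero, innerSL_apply_apply, real_inner_self_eq_norm_sq, ha,
    one_pow, one_smul, map_zero] at k3
  have k4 := congrArg (Fm.iprod b) k3
  rw [iprod_dx_mul, h2, mul_zero, sub_zero, innerSL_apply_apply, real_inner_self_eq_norm_sq, hb,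
    one_pow, one_smul, map_zero] at k4
  exact k4

end Lin

section Solid

variable {F : Type} [NormedAddCommGroup F] [InnerProductSpace ℝ F] [FiniteDimensional ℝ F]
  [MeasurableSpace F] [BorelSpace F] {m : ℕ} (o : OrthonormalBasis (Fin m) ℝ F)

theorem ne_open : IsOpen {x : F | x ≠ 0} := isOpen_ne

theorem sint_d (z : Form (dP F)) : sint o z.d = 0 := by
  rw [sint_eq, Form.pull_d]
  exact S2I.integral_dR_d (fun i => o i) _ cut_chF

theorem pull_rad_std (hm : 0 < m) {y : F} (hy : y ≠ 0) :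
    Fm.pull (fderiv ℝ (rad : F → F) y) (std (fun a => o a) (rad y)) =
      std (fun a => o a) y := by
  have h1 : std (fun a => o a) (rad y) = ‖y‖⁻¹ • Fm.iprod y (wdg fun a => o a) := by
    rw [std, norm_rad hy, one_pow, inv_one, one_smul, rad, iprod_smul]
  have h2 : (wdg fun a => o a) ∈ WF.hom F m := DegC.mem_hom_iff_q.2 (isDeg_ofFn _)
  obtain ⟨k, rfl⟩ : ∃ k, m = k + 1 := ⟨m - 1, by omega⟩
  have h3 : Fm.iprod y (wdg fun a => o a) ∈ WF.hom F k := WF.iprod_mem_hom y h2
  rw [h1, map_smul, pull_rad_of hy h3 (Fm.iprod_self y _), std, smul_smul, inv_pow, ← mul_inv,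
    ← pow_succ']

/-- **the solid angle form** as a form on the punctured space -/
theorem exists_solid (hm : 1 < m) : ∃ σ : Form (dP F), σ.d = 0 ∧ Form.IsDeg (m - 1) σ ∧
    sint o (Form.pull rad map_rad' σ) ≠ 0 := by
  have hfr : finrank ℝ F = m := by rw [finrank_eq_card_basis o.toBasis, Fintype.card_fin]
  set s : Form (dP F) := ofOn ne_open (std fun a => o a)
    (fun x hx => (std_smooth _ hx).contDiffWithinAt) with hs
  have hsv : ∀ y : F, y ≠ 0 → s.val id y = std (fun a => o a) y := fun y hy =>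
    S2I.ofOn_val_id ne_open _ _ hy
  have hsk : Form.IsDeg (m - 1) s := by
    obtain ⟨k, rfl⟩ : ∃ k, m = k + 1 := ⟨m - 1, by omega⟩
    exact DegC.ofWF (S2I.isDeg_ofOn ne_open _ _ fun x hx =>
      DegC.mem_hom_iff_q.2 (std_deg _ x))
  have hr1 : ∀ y : F, y ≠ 0 → (Form.pull rad map_rad' s).val id y = std (fun a => o a) y := by
    intro y hy
    have k1 : (dP F).At (id : F → F) y := S2I.at_id hy
    have k2 : (dP F).At (id : F → F) (rad y) := S2I.at_id (by
      rw [← norm_ne_zero_iff, norm_rad hy]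
      exact one_ne_zero)
    have k3 := s.nat (u := (id : F → F)) (g := (rad : F → F)) (x := y) k2 (S2I.sm_rad hy)
    rw [Form.pull_val _ _ k1]
    change s.val (id ∘ rad) y = _
    rw [k3, hsv _ (by
      rw [← norm_ne_zero_iff, norm_rad hy]
      exact one_ne_zero)]
    exact pull_rad_std o (by omega) hy
  have hr : Form.pull rad map_rad' s = s := ext_id ne_open fun x hx => by
    rw [hr1 x hx, hsv x hx]
  refine ⟨s, ?_, hsk, ?_⟩
  · -- closed
    have h1 : s.d = Form.pull rad map_rad' s.d := by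
      rw [Form.pull_d, hr]
    rw [h1]
    refine ext_id ne_open fun y hy => ?_
    have k1 : (dP F).At (id : F → F) y := S2I.at_id hy
    have hry : rad y ≠ 0 := by
      rw [← norm_ne_zero_iff, norm_rad hy]
      exact one_ne_zero
    have k2 : (dP F).At (id : F → F) (rad y) := S2I.at_id hry
    have k3 := s.d.nat (u := (id : F → F)) (g := (rad : F → F)) (x := y) k2 (S2I.sm_rad hy)
    rw [Form.pull_val _ _ k1, Form.zero_val]
    change s.d.val (id ∘ rad) y = _
    rw [k3]
    refine CoTop.pull_sphere_zero (S2I.sm_rad hy).differentiableAt ?_ hry ?_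
    · filter_upwards [isOpen_ne.mem_nhds hy] with z hz
      rw [norm_rad hz, norm_rad hy]
    · have h4 : Form.IsDeg m s.d := by
        have := hsk.d
        rwa [Nat.sub_add_cancel (by omega)] at this
      rw [hfr]
      exact DegC.toWF h4 k2
  · rw [hr]
    have h5 := CoC.sint_solid o (by omega) (C := 1) (w := s) (fun y hy => by
      rw [hr1 y hy, one_mul]
      rfl)
    rw [h5, one_mul]
    exact (CoC.sv_pos (by omega)).ne'

end Solid

end

end Vale.Agent.P231.CoZ
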