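import Vale.Agent.P231.CoZ.HM
import Vale.Agent.P231.S2II.B0

/-!
# P231, stage 2, S2-M: the integral of the orientation form over the unit spheres of the planes is
constant up to sign
-/

set_option maxSynthPendingDepth 3
set_option linter.unusedSectionVars false
set_option linter.unusedVariables false

open Bundle Manifold Set Filter Module MeasureTheory
open scoped ContDiff Manifold Topology

namespace Vale.Agent.P231.CoZ

noncomputable section

open Vale.Agent.P234 Vale.Agent.P231 Vale.Agent.P231.Fm Vale.Agent.P231.W Vale.Agent.P231.WR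
open Vale.Agent.P231.S2II

variable {E : Type*} [NormedAddCommGroup E] [NormedSpace ℝ E]
  {M : Type*} [MetricSpace M] [ChartedSpace E M]
  [RiemannianBundle (fun x : M => TangentSpace 𝓘(ℝ, E) x)]
  {e : ∀ x : M, TangentSpace 𝓘(ℝ, E) x → M}
  [FiniteDimensional ℝ E] [IsManifold 𝓘(ℝ, E) ∞ M]
  [IsContMDiffRiemannianBundle 𝓘(ℝ, E) ∞ E (fun x : M => TangentSpace 𝓘(ℝ, E) x)]
  [CompactSpace M] [ConnectedSpace M] [IsRiemannianManifold 𝓘(ℝ, E) M]
  (F : Facts e) {D : ℝ} (hD : 0 < D) (hB : InjGE e D) (hdiam : ∀ p q : M, dist p q ≤ D)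
  {l : ℕ} [NeZero l] (hP : ∀ x y : M, dist x y = D → finrank ℝ (H775.Pl e D x y) = l + 1)

include F hD hB hdiam hP

/-- the square of the fibre integral does not depend on the frame -/
theorem kfP_sq {b : Form (dUT E M)} (hdeg : Form.IsDeg l b) {f f' : Fr e D l}
    (h : f.v = f'.v) : kfP b f ^ 2 = kfP b f' ^ 2 := by
  obtain ⟨hg, hiso, hc⟩ := exists_transP F hD hB hdiam hP (const_at_Fr f 0) (const_at_Fr f' 0)
    (Eventually.of_forall fun _ => congrArg (fb e D) h)
  have h1 := kfP_change (b := b) hdeg (const_at_Fr f 0) (const_at_Fr f' 0) hg hiso hc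
  have h2 := det_iso hiso.self_of_nhds
  rw [h1, mul_pow, ← sq_abs (LinearMap.det _), h2, one_pow, one_mul]

/-- the square of the fibre integral is constant -/
theorem kfP_sq_const (h2 : 2 ≤ finrank ℝ E) {b : Form (dUT E M)} {c : Form (dZ e D)}
    (hdeg : Form.IsDeg l b) (hd : b.d = Form.pull (fb e D) map_fb c) (f f' : Fr e D l) :
    kfP b f ^ 2 = kfP b f' ^ 2 := by
  classical
  have hex : ∀ v : UT E M, ∃ r : Fr e D l, r.v = v := fun v => by
    obtain ⟨W, hW⟩ := exists_isLF F hD hB hdiam hP v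
    exact ⟨⟨(v, W), hW⟩, rfl⟩
  choose r hr using hex
  have h3 := WF.sConn_UT F h2 (fun v => kfP b (r v) ^ 2) (fun c hc s t => ?_) f.v f'.v
  · rw [← kfP_sq F hD hB hdiam hP hdeg (f := r f.v) (f' := f) (hr _),
      ← kfP_sq F hD hB hdiam hP hdeg (f := r f'.v) (f' := f') (hr _)]
    exact h3
  · have h4 : IsLocallyConstant fun t => kfP b (r (c t)) ^ 2 := by
      refine (IsLocallyConstant.iff_eventually_eq _).2 fun t => ?_
      obtain ⟨k, hk, hkc⟩ := (lifts_Fr F hD hB hdiam hP).lift (hc t)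
      have hv : ∀ s, (k s).v = c s → kfP b (r (c s)) ^ 2 = kfP b (k s) ^ 2 := fun s hs =>
        kfP_sq F hD hB hdiam hP hdeg ((hr _).trans hs.symm)
      have h6 : (k t).v = c t := hkc.self_of_nhds
      filter_upwards [kfP_eventually F hD hB hdiam hdeg hd hk, hkc] with s hs1 hs2
      rw [hv s hs2, hs1, hv t h6]
    exact h4.apply_eq_of_preconnectedSpace s t

/-- the absolute value of the fibre integral is constant -/
theorem abs_kfP (h2 : 2 ≤ finrank ℝ E) {b : Form (dUT E M)} {c : Form (dZ e D)}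
    (hdeg : Form.IsDeg l b) (hd : b.d = Form.pull (fb e D) map_fb c) (f f' : Fr e D l) :
    |kfP b f| = |kfP b f'| :=
  sq_eq_sq_iff_abs_eq_abs _ _ |>.1 (kfP_sq_const F hD hB hdiam hP h2 hdeg hd f f')

/-- one nonzero fibre integral suffices -/
theorem kfP_ne (h2 : 2 ≤ finrank ℝ E) {G : Form (dM E M)} (hGd : G.d = 0)
    (hG : Form.IsDeg (l + 1) G) (f₀ : Fr e D l) (h0 : kfP (B0 F D G) f₀ ≠ 0) (f : Fr e D l) :
    kfP (B0 F D G) f ≠ 0 := by
  intro hf
  have h1 := abs_kfP F hD hB hdiam hP h2 (b := B0 F D G) (c := cZ F D G) (isDeg_B0 F hG)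
    (by rw [B0_d F hGd, pull_cZ]) f₀ f
  rw [hf, abs_zero, abs_eq_zero] at h1
  exact h0 h1

/-- **(M4)** with one nonzero fibre integral as the only input -/
theorem gen_M' (hl : Odd l) (h2 : 2 ≤ finrank ℝ E) {G : Form (dM E M)} (hGd : G.d = 0)
    (hG : Form.IsDeg (l + 1) G) (f₀ : Fr e D l) (h0 : kfP (B0 F D G) f₀ ≠ 0) :
    CoC.Gen (dM E M) G (l + 1) (finrank ℝ E - 1) :=
  gen_M F hD hB hdiam hP hl (isDeg_B0 F hG) (B0_d F hGd) hG hGd
    (kfP_ne F hD hB hdiam hP h2 hGd hG f₀ h0)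

end

end Vale.Agent.P231.CoZ
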