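import Vale.Agent.P231.CoZ.Sq
import Vale.Agent.P231.FE.B0
import Vale.Agent.P231.FE.Ang
import Vale.Agent.P231.S2I.LH1

/-!
# P231, stage 2, S2-M: the value of the integral of `B₀` over the unit spheres of the planes
-/

set_option maxSynthPendingDepth 3
set_option linter.unusedSectionVars false
set_option linter.unusedVariables false

open Bundle Manifold Set Filter Module MeasureTheory
open scoped ContDiff Manifold Topology

namespace Vale.Agent.P231.CoZ

noncomputable section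

open Vale.Agent.P234 Vale.Agent.P231 Vale.Agent.P231.Fm Vale.Agent.P231.W Vale.Agent.P231.WR
open Vale.Agent.P231.S2II Vale.Agent.P231.S2I
open Vale.Agent.P231.Fm (Sm Dif Form Lam)
open Vale.Agent.P231.Q (dR Cut)

variable {E : Type*} [NormedAddCommGroup E] [NormedSpace ℝ E]
  {M : Type*} [MetricSpace M] [ChartedSpace E M]
  [RiemannianBundle (fun x : M => TangentSpace 𝓘(ℝ, E) x)]
  {e : ∀ x : M, TangentSpace 𝓘(ℝ, E) x → M}
  [FiniteDimensional ℝ E] [IsManifold 𝓘(ℝ, E) ∞ M]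
  [IsContMDiffRiemannianBundle 𝓘(ℝ, E) ∞ E (fun x : M => TangentSpace 𝓘(ℝ, E) x)]
  [CompactSpace M] [ConnectedSpace M] [IsRiemannianManifold 𝓘(ℝ, E) M]

section Sint

variable {D : ℝ} {l : ℕ}

/-- the evaluation of a frame on directions -/
def evR (f : Fr e D l) (y : Eul (l + 1)) : UT E M := evP (f, rad y)

theorem map_evR (f : Fr e D l) : (dP (Eul (l + 1))).Map (dUT E M) (evR f) :=
  fun {V} _ _ _ {u x} h => by
    have h0 : u x ≠ 0 := h.2.self_of_nhds
    have h1 : (dFr e D l).At (fun _ : V => f) x :=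
      ⟨Eventually.of_forall fun y => contMDiffAt_const,
        fun i => Eventually.of_forall fun y => contMDiffAt_const (c := (f.W i).1)⟩
    refine map_evP (e := e) (D := D) (l := l) (u := fun y => (f, rad (u y)))
      ⟨⟨h1, Co.sm_normalize h.1 h0⟩, ?_⟩
    filter_upwards [h.2] with y hy
    exact Fm.norm_rad hy

/-- the fibre integral as a sphere integral -/
theorem kfP_eq_sint (b : Form (dUT E M)) (f : Fr e D l) :
    kfP b f = sint (bas (l + 1)) (Form.pull (evR f) (map_evR f) b) := by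
  have hc : (dPt).Map (dFr e D l) (fun _ => f) := fun {V} _ _ _ {u x} h =>
    ⟨Eventually.of_forall fun y => contMDiffAt_const (c := f.v.1),
      fun i => Eventually.of_forall fun y => contMDiffAt_const (c := (f.W i).1)⟩
  have h1 := Co.si_nat (bas (l + 1)) hc (Form.pull evP (map_evP (e := e) (D := D) (l := l)) b)
  have h2 : Form.pull (fun p : Pt × Eul (l + 1) => (f, p.2)) (Co.map_SB hc)
      (Form.pull evP (map_evP (e := e) (D := D) (l := l)) b) =
      Form.pull Prod.snd map_i (Form.pull (evR f) (map_evR f) b) := by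
    refine Form.ext_val fun V _ _ _ u x hu => ?_
    rw [Form.pull_val _ _ hu, Form.pull_val _ _ (Co.map_SB hc hu), Form.pull_val _ _ hu,
      Form.pull_val _ _ (map_i hu)]
    refine b.congr (map_evP (Co.map_SB hc hu)) ?_
    filter_upwards [hu.2] with y hy
    have hy' : ‖(u y).2‖ = 1 := hy
    change evP (f, (u y).2) = evP (f, rad (u y).2)
    rw [rad, hy', inv_one, one_smul]
  rw [sint, ← h2, h1]
  have h3 : dPt.At (fun _ : ℝ => (0 : Pt)) 0 := pt_at _ _
  rw [WF.ptv, Form.pull_val _ _ h3]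
  rfl

end Sint

section Closed

variable (F : Facts e) {D : ℝ} (hD : 0 < D) (hB : InjGE e D) (hdiam : ∀ p q : M, dist p q ≤ D)
  {l : ℕ}

include F hD hB hdiam in
theorem evR_d {b : Form (dUT E M)} {G : Form (dM E M)} (hG : Form.IsDeg (l + 1) G)
    (hb : b.d = Form.pull (bar e D) (map_bar F D) G - Form.pull foot map_foot G)
    (f : Fr e D l) : (Form.pull (evR f) (map_evR f) b).d = 0 := by
  rw [← Form.pull_d, hb, Co.pull_sub]
  have h1 : Form.pull (evR f) (map_evR f) (Form.pull (bar e D) (map_bar F D) G) = 0 := by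
    refine Form.ext_val fun V _ _ _ u x hu => ?_
    rw [Form.pull_val _ _ hu, Form.pull_val _ _ (map_evR f hu), Form.zero_val]
    have h2 : (bar e D ∘ evR f ∘ u) = fun _ : V => bar e D f.v :=
      funext fun y => bar_evP F hD hB hdiam (f, rad (u y))
    have h3 : (dM E M).At (fun _ : V => bar e D f.v) x :=
      Eventually.of_forall fun y => contMDiffAt_const
    rw [h2]
    exact val_const hG h3
  have h4 : Form.pull (evR f) (map_evR f) (Form.pull foot map_foot G) = 0 := by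
    refine Form.ext_val fun V _ _ _ u x hu => ?_
    rw [Form.pull_val _ _ hu, Form.pull_val _ _ (map_evR f hu), Form.zero_val]
    have h2 : (foot ∘ evR f ∘ u) = fun _ : V => foot f.v :=
      funext fun y => foot_evP (f, rad (u y))
    have h3 : (dM E M).At (fun _ : V => foot f.v) x :=
      Eventually.of_forall fun y => contMDiffAt_const
    rw [h2]
    exact val_const hG h3
  rw [h1, h4, sub_zero]

end Closed

/-- the isometry of a frame -/
def TT {D : ℝ} {l : ℕ} (f : Fr e D l) :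
    Eul (l + 1) →ₗᵢ[ℝ] TangentSpace 𝓘(ℝ, E) (foot f.v) where
  toFun y := (pb (E := E) f y : TangentSpace 𝓘(ℝ, E) (foot f.v))
  map_add' y z := by
    change (pb f (y + z) : E) = pb f y + pb f z
    simp only [pb, PiLp.add_apply, add_smul, Finset.sum_add_distrib]
  map_smul' c y := by
    change (pb f (c • y) : E) = c • pb f y
    simp only [pb, PiLp.smul_apply, smul_eq_mul, mul_smul, Finset.smul_sum]
  norm_map' y := by
    have h1 : ip (foot f.v) (pb f y) (pb f y) = ‖y‖ ^ 2 := by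
      rw [ip_pb_pb, real_inner_self_eq_norm_sq]
    have h2 : ip (foot f.v) (pb f y) (pb f y) = nm (foot f.v) (pb f y) ^ 2 :=
      real_inner_self_eq_norm_sq (F := TangentSpace 𝓘(ℝ, E) (foot f.v)) _
    have h3 : nm (foot f.v) (pb f y) ^ 2 = ‖y‖ ^ 2 := by rw [← h2, h1]
    exact (sq_eq_sq₀ (norm_nonneg (E := TangentSpace 𝓘(ℝ, E) (foot f.v)) _)
      (norm_nonneg _)).1 h3

section Value

open Vale.Agent.P231.WE Vale.Agent.P231.FE

theorem TT_Pi (F : Facts e) {D : ℝ} (hD : 0 < D) (hB : InjGE e D)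
    (hdiam : ∀ p q : M, dist p q ≤ D) {n l : ℕ} (f : Fr e D l)
    {Pi : TangentSpace 𝓘(ℝ, E) (foot f.v) →
      TangentSpace 𝓘(ℝ, E) (foot f.v) →L[ℝ] TangentSpace 𝓘(ℝ, E) (foot f.v)}
    {o : TangentSpace 𝓘(ℝ, E) (foot f.v) → Fm.Lam (TangentSpace 𝓘(ℝ, E) (foot f.v))}
    (hJ : LineP e D (foot f.v) n Pi o) (w : Eul (l + 1)) :
    Pi (tv f.v) (TT f w) = TT f w := by
  rcases eq_or_ne w 0 with rfl | hw
  · rw [map_zero, map_zero]
  · have h1 : ‖rad w‖ = 1 := Fm.norm_rad hw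
    have h2 : w = ‖w‖ • rad w := by
      rw [rad, smul_smul, mul_inv_cancel₀ (norm_ne_zero_iff.2 hw), one_smul]
    have h3 : ‖TT f (rad w)‖ = 1 := by rw [(TT f).norm_map, h1]
    have h4 : e (foot f.v) (D • tv f.v) = e (foot f.v) (D • TT f (rad w)) := by
      have h5 := bar_evP F hD hB hdiam (f, rad w)
      rw [evP_of f h1] at h5
      exact h5.symm
    have h6 := (hJ.cut (tv f.v) (TT f (rad w)) (nm_vec' f.v) h3).1 h4
    rw [h2, map_smul, map_smul, h6]

variable {D : ℝ} {p : M} {n : ℕ}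
  {Pi : TangentSpace 𝓘(ℝ, E) p → TangentSpace 𝓘(ℝ, E) p →L[ℝ] TangentSpace 𝓘(ℝ, E) p}
  {o : TangentSpace 𝓘(ℝ, E) p → Fm.Lam (TangentSpace 𝓘(ℝ, E) p)}
  {ρ : TangentSpace 𝓘(ℝ, E) p → ℝ} {r₀ : ℝ}

/-- **the integral of `B₀` over the unit sphere of a plane at `p`** -/
theorem abs_kfP_FF (F : Facts e) (hD : 0 < D) (hB : InjGE e D)
    (hdiam : ∀ p q : M, dist p q ≤ D)
    (hl : ∀ x y : M, dist x y = D → finrank ℝ (H775.Pl e D x y) = 2 * n + 2)
    (hJ : LineP e D p n Pi o) (hρ : Rho e D p ρ r₀) (a : ℝ) (f : Fr e D (2 * n + 1))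
    (hf : foot f.v = p) :
    |kfP (B0 F D (FE.FF F hD hB hdiam hl hJ hρ a)) f| = FE.kap n a := by
  subst hf
  letI : MeasurableSpace (TangentSpace 𝓘(ℝ, E) (foot f.v)) := borel _
  haveI : BorelSpace (TangentSpace 𝓘(ℝ, E) (foot f.v)) := ⟨rfl⟩
  set G := FE.FF F hD hB hdiam hl hJ hρ a with hG
  have hGdeg : Form.IsDeg (2 * n + 1 + 1) G :=
    DegC.ofWF (FE.FF_deg F hD hB hdiam hl hJ hρ a)
  have hGd : G.d = 0 := FE.FF_d F hD hB hdiam hl hJ hρ a
  have hA := hJ.os.ang a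
  have h1 := kfP_eq_sint (B0 F D G) f
  have h2 := evR_d F hD hB hdiam hGdeg (B0_d F hGd) f
  rw [sint_eq_cut _ h2 cut_rst] at h1
  have key : ∀ y : Eul (2 * n + 1 + 1), y ≠ 0 →
      (Form.pull (evR f) (map_evR f) (B0 F D G)).val id y =
        Fm.pb (TT f) (FE.psi n a Pi o) y := by
    intro y hy
    rw [Form.pull_val _ _ (S2I.at_id hy)]
    have hu : Sm (fun z => TT f (rad z)) y := by
      filter_upwards [S2I.sm_rad hy] with z hz
      exact (TT f).contDiff.contDiffAt.comp z hz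
    have hU : ∀ᶠ z in 𝓝 y, foot (evR f z) = foot f.v ∧
        (vec' (evR f z) : E) = (TT f (rad z) : E) := by
      filter_upwards [isOpen_ne.mem_nhds hy] with z hz
      rw [evR, evP_of f (Fm.norm_rad hz)]
      exact ⟨rfl, rfl⟩
    have h3 := FE.B0_sphere F hD hB hdiam hl hJ hρ a hu hU
    change (B0 F D G).val (evR f) y = _
    refine Eq.trans h3 ?_
    have hTy : TT f y ≠ 0 := fun h0 => hy ((TT f).injective (by rw [h0, map_zero]))
    have h4 : (fun z => TT f (rad z)) = fun z => rad (TT f z) := by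
      funext z
      rw [rad, rad, map_smul, (TT f).norm_map]
    have hd2 : DifferentiableAt ℝ (rad : TangentSpace 𝓘(ℝ, E) (foot f.v) → _) (TT f y) :=
      (cd_rad hTy).differentiableAt (by simp)
    have hd1 : DifferentiableAt ℝ (TT f) y := (TT f).toContinuousLinearMap.differentiableAt
    rw [h4, pb_comp _ hd2 hd1]
    unfold Fm.pb
    have h5 := hA.hom _ hTy
    unfold Fm.pb at h5
    rw [h5]
  have h6 := hA.kappa (TT f) (tv f.v) (fun h0 => by
    have h7 : ‖tv f.v‖ = 1 := nm_vec' f.v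
    rw [h0, norm_zero] at h7
    exact zero_ne_one h7) (fun w => TT_Pi F hD hB hdiam f hJ w)
  rw [← h6, h1, TW.JJ]
  have h8 : (TW.bE (2 * n + 2)).addHaar = volume := (bas (2 * n + 2)).addHaar_eq_volume
  rw [h8]
  congr 1
  refine integral_congr_ae (Eventually.of_forall fun y => ?_)
  rcases eq_or_ne y 0 with rfl | hy
  · have h5 : dR (rst : Eul (2 * n + 1 + 1) → ℝ) 0 = 0 :=
      dR_rst_zero (by rw [norm_zero]; norm_num)
    simp only [h5, zero_mul]
    rfl
  · simp only [key y hy]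
    rfl

/-- the integral of `B₀` over the unit spheres of all the planes -/
theorem abs_kfP_all (F : Facts e) (hD : 0 < D) (hB : InjGE e D)
    (hdiam : ∀ p q : M, dist p q ≤ D)
    (hl : ∀ x y : M, dist x y = D → finrank ℝ (H775.Pl e D x y) = 2 * n + 2)
    (hJ : LineP e D p n Pi o) (hρ : Rho e D p ρ r₀) (a : ℝ) (hN : 2 ≤ finrank ℝ E)
    (f : Fr e D (2 * n + 1)) :
    |kfP (B0 F D (FE.FF F hD hB hdiam hl hJ hρ a)) f| = FE.kap n a := by
  have : NeZero (2 * n + 1) := ⟨by omega⟩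
  obtain ⟨ξ₀, hξ⟩ := CoU.exists_unit (E := E) (by omega)
  let v₀ : UT E M := W.mk p (fr (E := E) p ξ₀) (by rw [nm_fr, hξ])
  obtain ⟨W₀, hW₀⟩ := exists_isLF F hD hB hdiam (l := 2 * n + 1) hl v₀
  let f₀ : Fr e D (2 * n + 1) := ⟨(v₀, W₀), hW₀⟩
  rw [← abs_kfP_FF F hD hB hdiam hl hJ hρ a f₀ rfl]
  have hG : Form.IsDeg (2 * n + 1 + 1) (FE.FF F hD hB hdiam hl hJ hρ a) :=
    DegC.ofWF (FE.FF_deg F hD hB hdiam hl hJ hρ a)
  exact abs_kfP F hD hB hdiam (l := 2 * n + 1) hl hN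
    (c := cZ F D (FE.FF F hD hB hdiam hl hJ hρ a)) (isDeg_B0 F hG)
    (by rw [B0_d F (FE.FF_d F hD hB hdiam hl hJ hρ a), pull_cZ]) f f₀

/-- **(M4)** for 637's form `F`: the closed forms of degree `j < dim M - 1` on `M` are the multiples
of `F ^ (j / (2 n + 2))`, up to exact forms -/
theorem gen_FF (F : Facts e) (hD : 0 < D) (hB : InjGE e D)
    (hdiam : ∀ p q : M, dist p q ≤ D)
    (hl : ∀ x y : M, dist x y = D → finrank ℝ (H775.Pl e D x y) = 2 * n + 2)
    (hJ : LineP e D p n Pi o) (hρ : Rho e D p ρ r₀) {a : ℝ} (ha : a ≠ 0)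
    (hN : 2 ≤ finrank ℝ E) :
    CoC.Gen (dM E M) (FE.FF F hD hB hdiam hl hJ hρ a) (2 * n + 2) (finrank ℝ E - 1) := by
  have : NeZero (2 * n + 1) := ⟨by omega⟩
  have hG : Form.IsDeg (2 * n + 1 + 1) (FE.FF F hD hB hdiam hl hJ hρ a) :=
    DegC.ofWF (FE.FF_deg F hD hB hdiam hl hJ hρ a)
  refine gen_M F hD hB hdiam (l := 2 * n + 1) hl ⟨n, rfl⟩ (isDeg_B0 F hG)
    (B0_d F (FE.FF_d F hD hB hdiam hl hJ hρ a)) hG (FE.FF_d F hD hB hdiam hl hJ hρ a)
    fun f h0 => ?_
  have h1 := abs_kfP_all F hD hB hdiam hl hJ hρ a hN f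
  rw [h0, abs_zero] at h1
  exact (FE.kap_pos n ha).ne h1

end Value

end

end Vale.Agent.P231.CoZ
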